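import Mathlib

/-!
Sparse hop-spanners: greedy construction and the counting bound.
-/

open SimpleGraph

namespace Vale.Agent.P249

variable {V : Type*} [DecidableEq V]

/-- Every non-trivial closed trail has length more than `L`. -/
def NoShortTrail (G : SimpleGraph V) (L : ℕ) : Prop :=
  ∀ (u : V) (c : G.Walk u u), c.IsTrail → c ≠ Walk.nil → L < c.length

/-- A trail through the new edge splits into two walks of the old graph. -/
lemma split_trail {G : SimpleGraph V} {x y : V} {u v : V}
    (c : (G ⊔ edge x y).Walk u v) (hc : c.IsTrail) (hxy : s(x, y) ∈ c.edges) :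
    (∃ (p : G.Walk u x) (q : G.Walk y v), p.length + q.length + 1 = c.length) ∨
    (∃ (p : G.Walk u y) (q : G.Walk x v), p.length + q.length + 1 = c.length) := by
  induction c with
  | nil => simp at hxy
  | @cons u w v h p ih =>
    have htr := (Walk.isTrail_cons h p).mp hc
    by_cases hfirst : s(u, w) = s(x, y)
    · have hnot : s(x, y) ∉ p.edges := hfirst ▸ htr.2
      have htrans : ∀ e ∈ p.edges, e ∈ G.edgeSet := by
        intro e he
        have h1 := p.edges_subset_edgeSet he
        rw [edgeSet_sup] at h1
        rcases h1 with h1 | h1
        · exact h1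
        · exfalso
          have h2 : e = s(x, y) := by
            have := edgeSet_edge_of_ne (s := x) (t := y)
            by_cases hne : x = y
            · subst hne
              simp [edge] at h1
              exact h1.1
            · rw [this hne] at h1
              exact h1
          exact hnot (h2 ▸ he)
      rcases Sym2.eq_iff.mp hfirst with ⟨rfl, rfl⟩ | ⟨rfl, rfl⟩
      · left
        exact ⟨Walk.nil, p.transfer G htrans, by simp⟩
      · right
        exact ⟨Walk.nil, p.transfer G htrans, by simp⟩
    · have hmem : s(x, y) ∈ p.edges := by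
        simp only [Walk.edges_cons, List.mem_cons] at hxy
        rcases hxy with h1 | h1
        · exact absurd h1.symm hfirst
        · exact h1
      have hadj : G.Adj u w := by
        rw [sup_adj] at h
        rcases h with h | h
        · exact h
        · exfalso
          rw [edge_adj] at h
          apply hfirst
          rw [Sym2.eq_iff]
          tauto
      rcases ih htr.1 hmem with ⟨p', q, hpq⟩ | ⟨p', q, hpq⟩
      · left
        exact ⟨Walk.cons hadj p', q, by simp; omega⟩
      · right
        exact ⟨Walk.cons hadj p', q, by simp; omega⟩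

lemma noShortTrail_add {G : SimpleGraph V} {L : ℕ} (hG : NoShortTrail G (L + 1)) {x y : V}
    (hxy : ∀ w : G.Walk x y, L < w.length) : NoShortTrail (G ⊔ edge x y) (L + 1) := by
  intro u c hc hne
  by_cases hmem : s(x, y) ∈ c.edges
  · rcases split_trail c hc hmem with ⟨p, q, hpq⟩ | ⟨p, q, hpq⟩
    · have := hxy ((q.append p).reverse)
      simp only [Walk.length_reverse, Walk.length_append] at this
      omega
    · have := hxy (q.append p)
      simp only [Walk.length_append] at this
      omega
  · have htrans : ∀ e ∈ c.edges, e ∈ G.edgeSet := by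
      intro e he
      have h1 := c.edges_subset_edgeSet he
      rw [edgeSet_sup] at h1
      rcases h1 with h1 | h1
      · exact h1
      · exfalso
        have h2 : e = s(x, y) := by
          by_cases hne : x = y
          · subst hne
            simp [edge] at h1
            exact h1.1
          · rw [edgeSet_edge_of_ne hne] at h1
            exact h1
        exact hmem (h2 ▸ he)
    have h1 := hG u (c.transfer G htrans) (by
      rw [Walk.isTrail_def, Walk.edges_transfer]
      exact hc.edges_nodup) (by
      intro h0
      apply hne
      have : (c.transfer G htrans).length = 0 := by rw [h0]; rfl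
      rw [Walk.length_transfer] at this
      exact Walk.eq_of_length_eq_zero this |> fun _ => by
        cases c with
        | nil => rfl
        | cons h p => simp at this)
    rwa [Walk.length_transfer] at h1

/-- Greedy construction of hop-spanners. -/
theorem exists_greedy (len : Sym2 V → ℝ) {L : ℕ} (hL : 1 ≤ L) (S : Finset (Sym2 V)) :
    ∃ G : SimpleGraph V, NoShortTrail G (L + 1) ∧
      ∀ x y : V, x ≠ y → s(x, y) ∈ S → ∃ w : G.Walk x y, w.length ≤ L ∧
        ∀ e ∈ w.edges, len e ≤ len s(x, y) := by
  suffices h : ∃ G : SimpleGraph V, (∀ e ∈ G.edgeSet, e ∈ S) ∧ NoShortTrail G (L + 1) ∧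
      ∀ x y : V, x ≠ y → s(x, y) ∈ S → ∃ w : G.Walk x y, w.length ≤ L ∧
        ∀ e ∈ w.edges, len e ≤ len s(x, y) by
    obtain ⟨G, -, h1, h2⟩ := h
    exact ⟨G, h1, h2⟩
  induction S using Finset.induction_on_max_value len with
  | empty =>
    refine ⟨⊥, by simp, ?_, by simp⟩
    intro u c _ hne
    exfalso
    apply hne
    cases c with
    | nil => rfl
    | cons h p => exact absurd h (by simp)
  | insert a s ha hmax ih =>
    obtain ⟨G, hGs, hG, hw⟩ := ih
    induction a using Sym2.ind with
    | _ a b =>
    by_cases hab : a = b
    · subst hab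
      refine ⟨G, fun e he => Finset.mem_insert_of_mem (hGs e he), hG, ?_⟩
      intro x y hxy hmem
      rcases Finset.mem_insert.mp hmem with h1 | h1
      · exfalso
        rcases Sym2.eq_iff.mp h1 with ⟨rfl, rfl⟩ | ⟨rfl, rfl⟩ <;> exact hxy rfl
      · exact hw x y hxy h1
    by_cases hex : ∃ w : G.Walk a b, w.length ≤ L
    · obtain ⟨w, hwL⟩ := hex
      refine ⟨G, fun e he => Finset.mem_insert_of_mem (hGs e he), hG, ?_⟩
      intro x y hxy hmem
      rcases Finset.mem_insert.mp hmem with h1 | h1
      · rcases Sym2.eq_iff.mp h1 with ⟨rfl, rfl⟩ | ⟨rfl, rfl⟩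
        · exact ⟨w, hwL, fun e he => hmax e (hGs e (w.edges_subset_edgeSet he))⟩
        · refine ⟨w.reverse, by simpa using hwL, fun e he => ?_⟩
          rw [Walk.edges_reverse, List.mem_reverse] at he
          rw [Sym2.eq_swap]
          exact hmax e (hGs e (w.edges_subset_edgeSet he))
      · exact hw x y hxy h1
    · push Not at hex
      refine ⟨G ⊔ edge a b, ?_, noShortTrail_add hG hex, ?_⟩
      · intro e he
        rw [edgeSet_sup] at he
        rcases he with he | he
        · exact Finset.mem_insert_of_mem (hGs e he)
        · rw [edgeSet_edge_of_ne hab] at he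
          rw [he]
          exact Finset.mem_insert_self _ _
      · intro x y hxy hmem
        rcases Finset.mem_insert.mp hmem with h1 | h1
        · have hadj : (G ⊔ edge a b).Adj x y := by
            rw [sup_adj]; right
            rw [edge_adj]
            rcases Sym2.eq_iff.mp h1 with ⟨rfl, rfl⟩ | ⟨rfl, rfl⟩ <;> tauto
          refine ⟨Walk.cons hadj Walk.nil, by simpa using hL, ?_⟩
          intro e he
          simp only [Walk.edges_cons, Walk.edges_nil, List.mem_singleton] at he
          rw [he]
        · obtain ⟨w, h2, h3⟩ := hw x y hxy h1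
          refine ⟨w.mapLe le_sup_left, by simpa using h2, ?_⟩
          intro e he
          rw [Walk.edges_mapLe_eq_edges] at he
          exact h3 e he

end Vale.Agent.P249
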