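import Mathlib
import Vale.Agent.P249.Spanner

/-!
The counting bound: a graph on fewer than `2^k` vertices without closed trails of length `≤ 2k`
has at most `2 |V|` edges.
-/

open SimpleGraph

namespace Vale.Agent.P249

variable {V : Type*} [DecidableEq V]

/-- Short paths are unique. -/
lemma path_unique_of_noShortTrail {G : SimpleGraph V} {k : ℕ} (hG : NoShortTrail G (2 * k))
    {u v : V} (p q : G.Walk u v) (hp : p.IsPath) (hq : q.IsPath) (hpk : p.length ≤ k)
    (hqk : q.length ≤ k) : p = q := by
  set H : SimpleGraph V := fromEdgeSet {e | e ∈ p.edges ∨ e ∈ q.edges} with hH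
  have hHe : ∀ e, e ∈ H.edgeSet → e ∈ p.edges ∨ e ∈ q.edges := by
    intro e he
    rw [hH, edgeSet_fromEdgeSet] at he
    exact he.1
  have hle : H ≤ G := by
    rw [← edgeSet_subset_edgeSet]
    intro e he
    rcases hHe e he with h | h
    · exact p.edges_subset_edgeSet h
    · exact q.edges_subset_edgeSet h
  have hpH : ∀ e ∈ p.edges, e ∈ H.edgeSet := by
    intro e he
    rw [hH, edgeSet_fromEdgeSet]
    exact ⟨Or.inl he, G.not_isDiag_of_mem_edgeSet (p.edges_subset_edgeSet he)⟩
  have hqH : ∀ e ∈ q.edges, e ∈ H.edgeSet := by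
    intro e he
    rw [hH, edgeSet_fromEdgeSet]
    exact ⟨Or.inr he, G.not_isDiag_of_mem_edgeSet (q.edges_subset_edgeSet he)⟩
  by_cases hac : H.IsAcyclic
  · have h1 := (hac.subsingleton_path u v).elim ⟨p.transfer H hpH, hp.transfer hpH⟩
      ⟨q.transfer H hqH, hq.transfer hqH⟩
    have h2 : p.transfer H hpH = q.transfer H hqH := congrArg Subtype.val h1
    apply Walk.ext_support
    have h3 := congrArg Walk.support h2
    rwa [Walk.support_transfer, Walk.support_transfer] at h3
  · exfalso
    unfold SimpleGraph.IsAcyclic at hac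
    push Not at hac
    obtain ⟨w, c, hc⟩ := hac
    have h1 : (c.mapLe hle).IsTrail := hc.isTrail.mapLe hle
    have h2 : c.mapLe hle ≠ Walk.nil := by
      intro h0
      have : (c.mapLe hle).length = 0 := by rw [h0]; rfl
      rw [Walk.length_mapLe] at this
      have := hc.three_le_length
      omega
    have h3 := hG w _ h1 h2
    rw [Walk.length_mapLe] at h3
    have h4 : c.edges.toFinset ⊆ p.edges.toFinset ∪ q.edges.toFinset := by
      intro e he
      rw [List.mem_toFinset] at he
      rw [Finset.mem_union, List.mem_toFinset, List.mem_toFinset]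
      exact hHe e (c.edges_subset_edgeSet he)
    have h5 := (Finset.card_le_card h4).trans (Finset.card_union_le _ _)
    rw [List.toFinset_card_of_nodup hc.isTrail.edges_nodup, Walk.length_edges] at h5
    have h6 := p.edges.toFinset_card_le
    have h7 := q.edges.toFinset_card_le
    rw [Walk.length_edges] at h6 h7
    omega

/-- Endpoints of paths of length `i` from `v₀` inside `S`. -/
def Reach (G : SimpleGraph V) (S : Finset V) (v₀ : V) (i : ℕ) (u : V) : Prop :=
  ∃ p : G.Walk v₀ u, p.IsPath ∧ p.length = i ∧ ∀ w ∈ p.support, w ∈ S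

/-- `w` extends a path of length `i` from `v₀` to `u` inside `S`. -/
def Ext (G : SimpleGraph V) (S : Finset V) (v₀ : V) (i : ℕ) (u w : V) : Prop :=
  ∃ p : G.Walk v₀ u, p.IsPath ∧ p.length = i ∧ (∀ z ∈ p.support, z ∈ S) ∧ G.Adj u w ∧
    w ∉ p.support

lemma ext_unique {G : SimpleGraph V} {k : ℕ} (hG : NoShortTrail G (2 * k)) {S : Finset V}
    {v₀ : V} {i : ℕ} (hi : i + 1 ≤ k) {u u' w : V} (h : Ext G S v₀ i u w)
    (h' : Ext G S v₀ i u' w) : u = u' := by
  obtain ⟨p, hp, hpl, -, ha, hw⟩ := h
  obtain ⟨p', hp', hpl', -, ha', hw'⟩ := h'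
  have h1 : p.concat ha = p'.concat ha' := by
    apply path_unique_of_noShortTrail hG
    · exact hp.concat hw ha
    · exact hp'.concat hw' ha'
    · simp; omega
    · simp; omega
  exact (Walk.concat_inj h1).choose

lemma reach_ext {G : SimpleGraph V} [DecidableRel G.Adj] {k : ℕ}
    (hG : NoShortTrail G (2 * k)) {S : Finset V}
    (hdeg : ∀ v ∈ S, 3 ≤ (S.filter (G.Adj v)).card) {v₀ : V} {i : ℕ} (hi : i + 1 ≤ k) {u : V}
    (hu : u ∈ S) (hr : Reach G S v₀ i u) :
    ∃ N : Finset V, N ⊆ S ∧ 2 ≤ N.card ∧ ∀ w ∈ N, Ext G S v₀ i u w := by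
  obtain ⟨p, hp, hpl, hpS⟩ := hr
  refine ⟨(S.filter (G.Adj u)).erase (p.getVert (i - 1)), ?_, ?_, ?_⟩
  · exact (Finset.erase_subset _ _).trans (Finset.filter_subset _ _)
  · have h1 := hdeg u hu
    have h2 := Finset.pred_card_le_card_erase (s := S.filter (G.Adj u)) (a := p.getVert (i - 1))
    omega
  · intro w hw
    rw [Finset.mem_erase, Finset.mem_filter] at hw
    obtain ⟨hne, hwS, hadj⟩ := hw
    refine ⟨p, hp, hpl, hpS, hadj, ?_⟩
    intro hmem
    apply hne
    -- two paths from `w` to `u`
    have h1 : p.dropUntil w hmem = Walk.cons hadj.symm Walk.nil := by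
      apply path_unique_of_noShortTrail hG
      · exact hp.dropUntil hmem
      · simp [hadj.symm.ne]
      · have := p.length_dropUntil_le_length hmem
        omega
      · simp; omega
    have h2 : (p.dropUntil w hmem).length = 1 := by rw [h1]; rfl
    have h3 := congrArg Walk.length (p.take_spec hmem)
    rw [Walk.length_append] at h3
    have h4 := Walk.getVert_length_takeUntil hmem
    have h5 : (p.takeUntil w hmem).length = i - 1 := by omega
    rw [h5] at h4
    exact h4.symm

lemma reach_growth {G : SimpleGraph V} [DecidableRel G.Adj] {k : ℕ}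
    (hG : NoShortTrail G (2 * k)) {S : Finset V}
    (hdeg : ∀ v ∈ S, 3 ≤ (S.filter (G.Adj v)).card) {v₀ : V} (hv₀ : v₀ ∈ S) (i : ℕ) (hi : i ≤ k) :
    ∃ A : Finset V, A ⊆ S ∧ 2 ^ i ≤ A.card ∧ ∀ u ∈ A, Reach G S v₀ i u := by
  classical
  induction i with
  | zero =>
    refine ⟨{v₀}, by simpa using hv₀, by simp, ?_⟩
    intro u hu
    rw [Finset.mem_singleton] at hu
    subst hu
    exact ⟨Walk.nil, Walk.IsPath.nil, rfl, by simpa using hv₀⟩
  | succ i ih =>
    obtain ⟨A, hAS, hAc, hA⟩ := ih (by omega)
    choose! N hNS hN2 hNE using fun (u : V) (hu : u ∈ A) => reach_ext hG hdeg hi (hAS hu) (hA u hu)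
    refine ⟨A.biUnion N, ?_, ?_, ?_⟩
    · intro w hw
      rw [Finset.mem_biUnion] at hw
      obtain ⟨u, hu, hw⟩ := hw
      exact hNS u hu hw
    · rw [Finset.card_biUnion]
      · have : ∑ u ∈ A, 2 ≤ ∑ u ∈ A, (N u).card := Finset.sum_le_sum fun u hu => hN2 u hu
        rw [Finset.sum_const, smul_eq_mul] at this
        rw [pow_succ]
        nlinarith
      · intro u hu u' hu' hne
        simp only [Function.onFun]
        rw [Finset.disjoint_left]
        intro w hw hw'
        exact hne (ext_unique hG hi (hNE u hu w hw) (hNE u' hu' w hw'))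
    · intro w hw
      rw [Finset.mem_biUnion] at hw
      obtain ⟨u, hu, hw⟩ := hw
      obtain ⟨p, hp, hpl, hpS, hadj, hwp⟩ := hNE u hu w hw
      refine ⟨p.concat hadj, hp.concat hwp hadj, by simp [hpl], ?_⟩
      intro z hz
      rw [Walk.support_concat] at hz
      simp only [List.concat_eq_append, List.mem_append, List.mem_singleton] at hz
      rcases hz with hz | hz
      · exact hpS z hz
      · rw [hz]; exact hNS u hu hw

/-- The counting bound (ordered pairs). -/
theorem card_adj_le [Fintype V] {G : SimpleGraph V} [DecidableRel G.Adj] {k : ℕ}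
    (hG : NoShortTrail G (2 * k)) (hV : Fintype.card V < 2 ^ k) (S : Finset V) :
    ∑ v ∈ S, (S.filter (G.Adj v)).card ≤ 4 * S.card := by
  induction S using Finset.strongInduction with
  | H S ih =>
    by_cases hS : ∃ v ∈ S, (S.filter (G.Adj v)).card ≤ 2
    · obtain ⟨v, hv, hd⟩ := hS
      have h1 := ih (S.erase v) (Finset.erase_ssubset hv)
      rw [Finset.card_erase_of_mem hv] at h1
      have hpos : 0 < S.card := Finset.card_pos.mpr ⟨v, hv⟩
      rw [← Finset.add_sum_erase _ _ hv]
      have h2 : ∀ u ∈ S.erase v, (S.filter (G.Adj u)).card ≤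
          ((S.erase v).filter (G.Adj u)).card + (if G.Adj v u then 1 else 0) := by
        intro u _
        have h3 : S.filter (G.Adj u) ⊆ ((S.erase v).filter (G.Adj u)) ∪
            (if G.Adj v u then {v} else ∅) := by
          intro w hw
          rw [Finset.mem_filter] at hw
          rw [Finset.mem_union, Finset.mem_filter, Finset.mem_erase]
          by_cases hwv : w = v
          · right
            subst hwv
            rw [if_pos hw.2.symm]
            exact Finset.mem_singleton_self _
          · left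
            exact ⟨⟨hwv, hw.1⟩, hw.2⟩
        refine (Finset.card_le_card h3).trans ((Finset.card_union_le _ _).trans ?_)
        split_ifs <;> simp
      have h4 := Finset.sum_le_sum h2
      rw [Finset.sum_add_distrib] at h4
      have h5 : ∑ u ∈ S.erase v, (if G.Adj v u then 1 else 0) ≤ (S.filter (G.Adj v)).card := by
        rw [← Finset.card_filter]
        exact Finset.card_le_card (Finset.filter_subset_filter _ (Finset.erase_subset _ _))
      omega
    · push Not at hS
      rcases S.eq_empty_or_nonempty with rfl | ⟨v₀, hv₀⟩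
      · simp
      · exfalso
        obtain ⟨A, -, hA, -⟩ := reach_growth hG (fun v hv => hS v hv) hv₀ k le_rfl
        have := Finset.card_le_univ A
        omega

end Vale.Agent.P249
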