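import Mathlib

/-!
Simultaneous sampling of finitely many bounded functions (Chernoff and a union bound).
-/

open MeasureTheory Finset
open scoped ENNReal

namespace Vale.Agent.P249

variable {Ω : Type*} [MeasurableSpace Ω]

lemma exp_chord {t θ : ℝ} (h0 : 0 ≤ t) (h1 : t ≤ 1) (hθ : |θ| ≤ 1) :
    Real.exp (θ * t) ≤ 1 + t * (θ + θ ^ 2) := by
  have hc := convexOn_exp.2 (Set.mem_univ θ) (Set.mem_univ (0 : ℝ)) h0
    (sub_nonneg.mpr h1) (by ring)
  simp only [smul_eq_mul, mul_zero, add_zero, Real.exp_zero, mul_one] at hc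
  have h2 := abs_le.mp (Real.abs_exp_sub_one_sub_id_le hθ)
  have h3 : Real.exp θ ≤ 1 + θ + θ ^ 2 := by linarith [h2.2]
  have h4 : t * Real.exp θ ≤ t * (1 + θ + θ ^ 2) := mul_le_mul_of_nonneg_left h3 h0
  rw [mul_comm θ t]
  linarith

lemma mgf_bound (ν : Measure Ω) [IsProbabilityMeasure ν] {Y : Ω → ℝ} (hm : Measurable Y) {B : ℝ}
    (hB : 0 < B) (h0 : ∀ ω, 0 ≤ Y ω) (hYB : ∀ ω, Y ω ≤ B) (hmean : ∫ ω, Y ω ∂ν = 1) {θ : ℝ}
    (hθ : |θ| ≤ 1) : Integrable (fun ω => Real.exp (θ * (Y ω / B))) ν ∧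
      ∫ ω, Real.exp (θ * (Y ω / B)) ∂ν ≤ Real.exp ((θ + θ ^ 2) / B) := by
  have hY01 : ∀ ω, 0 ≤ Y ω / B ∧ Y ω / B ≤ 1 := fun ω =>
    ⟨div_nonneg (h0 ω) hB.le, (div_le_one hB).mpr (hYB ω)⟩
  have hint : Integrable (fun ω => Real.exp (θ * (Y ω / B))) ν := by
    apply Integrable.of_bound (C := Real.exp 1)
    · exact (Real.measurable_exp.comp ((hm.div_const B).const_mul θ)).aestronglyMeasurable
    · refine Filter.Eventually.of_forall fun ω => ?_
      rw [Real.norm_eq_abs, abs_of_pos (Real.exp_pos _)]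
      apply Real.exp_le_exp.mpr
      calc θ * (Y ω / B) ≤ |θ * (Y ω / B)| := le_abs_self _
        _ = |θ| * (Y ω / B) := by rw [abs_mul, abs_of_nonneg (hY01 ω).1]
        _ ≤ 1 * 1 := mul_le_mul hθ (hY01 ω).2 (hY01 ω).1 zero_le_one
        _ = 1 := by ring
  have hYint : Integrable Y ν := by
    apply Integrable.of_bound (C := B) hm.aestronglyMeasurable
    refine Filter.Eventually.of_forall fun ω => ?_
    rw [Real.norm_eq_abs, abs_of_nonneg (h0 ω)]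
    exact hYB ω
  refine ⟨hint, ?_⟩
  calc ∫ ω, Real.exp (θ * (Y ω / B)) ∂ν ≤ ∫ ω, (1 + Y ω / B * (θ + θ ^ 2)) ∂ν := by
        apply integral_mono hint
        · exact (integrable_const _).add ((hYint.div_const B).mul_const _)
        · intro ω
          exact exp_chord (hY01 ω).1 (hY01 ω).2 hθ
    _ = 1 + 1 / B * (θ + θ ^ 2) := by
        rw [integral_add (integrable_const _) ((hYint.div_const B).mul_const _),
          integral_mul_const, integral_div, hmean]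
        simp
    _ ≤ Real.exp ((θ + θ ^ 2) / B) := by
        have := Real.add_one_le_exp ((θ + θ ^ 2) / B)
        calc 1 + 1 / B * (θ + θ ^ 2) = (θ + θ ^ 2) / B + 1 := by ring
          _ ≤ _ := this

/-- the exponential test function -/
noncomputable def Phi (N : ℕ) (Y : Ω → ℝ) (B θ : ℝ) (ω : Fin N → Ω) : ℝ :=
  Real.exp (-((1 + 2 * θ) * N * θ / B)) * ∏ i, Real.exp (θ * (Y (ω i) / B))

omit [MeasurableSpace Ω] in
lemma Phi_pos (N : ℕ) (Y : Ω → ℝ) (B θ : ℝ) (ω : Fin N → Ω) : 0 < Phi N Y B θ ω := by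
  unfold Phi
  apply mul_pos (Real.exp_pos _)
  exact Finset.prod_pos fun i _ => Real.exp_pos _

lemma Phi_integral (ν : Measure Ω) [IsProbabilityMeasure ν] {Y : Ω → ℝ} (hm : Measurable Y) {B : ℝ}
    (hB : 0 < B) (h0 : ∀ ω, 0 ≤ Y ω) (hYB : ∀ ω, Y ω ≤ B) (hmean : ∫ ω, Y ω ∂ν = 1) {θ : ℝ}
    (hθ : |θ| ≤ 1) (N : ℕ) :
    Integrable (Phi N Y B θ) (Measure.pi fun _ : Fin N => ν) ∧
    ∫ ω, Phi N Y B θ ω ∂(Measure.pi fun _ : Fin N => ν) ≤ Real.exp (-(N * θ ^ 2 / B)) := by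
  obtain ⟨h1, h2⟩ := mgf_bound ν hm hB h0 hYB hmean hθ
  refine ⟨?_, ?_⟩
  · unfold Phi
    exact (Integrable.fintype_prod (f := fun (_ : Fin N) ω => Real.exp (θ * (Y ω / B)))
      (fun _ => h1)).const_mul _
  · unfold Phi
    rw [integral_const_mul, integral_fintype_prod_eq_pow (ι := Fin N)
      (fun ω => Real.exp (θ * (Y ω / B))), Fintype.card_fin]
    have hnn : 0 ≤ ∫ ω, Real.exp (θ * (Y ω / B)) ∂ν :=
      integral_nonneg fun ω => (Real.exp_pos _).le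
    calc Real.exp (-((1 + 2 * θ) * N * θ / B)) * (∫ ω, Real.exp (θ * (Y ω / B)) ∂ν) ^ N
        ≤ Real.exp (-((1 + 2 * θ) * N * θ / B)) * (Real.exp ((θ + θ ^ 2) / B)) ^ N := by
          apply mul_le_mul_of_nonneg_left _ (Real.exp_pos _).le
          exact pow_le_pow_left₀ hnn h2 N
      _ = Real.exp (-(N * θ ^ 2 / B)) := by
          rw [← Real.exp_nat_mul, ← Real.exp_add]
          congr 1
          field_simp
          ring

omit [MeasurableSpace Ω] in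
lemma Phi_lt_one {N : ℕ} {Y : Ω → ℝ} {B θ : ℝ} (hB : 0 < B) {ω : Fin N → Ω}
    (h : Phi N Y B θ ω < 1) : θ * ∑ i, Y (ω i) < (1 + 2 * θ) * N * θ := by
  unfold Phi at h
  rw [← Real.exp_sum, ← Real.exp_add, Real.exp_lt_one_iff] at h
  rw [← Finset.mul_sum, ← Finset.sum_div] at h
  have h2 : (-((1 + 2 * θ) * N * θ / B) + θ * ((∑ i, Y (ω i)) / B)) * B < 0 * B :=
    mul_lt_mul_of_pos_right h hB
  have h3 : (-((1 + 2 * θ) * N * θ / B) + θ * ((∑ i, Y (ω i)) / B)) * B =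
      -((1 + 2 * θ) * N * θ) + θ * ∑ i, Y (ω i) := by
    field_simp
  rw [h3] at h2
  linarith

/-- Simultaneous sampling. -/
theorem exists_sample {ι : Type*} [Fintype ι] (ν : Measure Ω) [IsProbabilityMeasure ν]
    (Y : ι → Ω → ℝ) (hm : ∀ e, Measurable (Y e)) {B ε : ℝ} (hB : 0 < B) (h0 : ∀ e ω, 0 ≤ Y e ω)
    (hYB : ∀ e ω, Y e ω ≤ B) (hmean : ∀ e, ∫ ω, Y e ω ∂ν = 1) (hε : 0 < ε) (hε1 : ε ≤ 1) {N : ℕ}
    (hN : 2 * (Fintype.card ι : ℝ) * Real.exp (-(N * (ε / 2) ^ 2 / B)) < 1) :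
    ∃ ω : Fin N → Ω, ∀ e, (1 - ε) * N < ∑ i, Y e (ω i) ∧ ∑ i, Y e (ω i) < (1 + ε) * N := by
  have habs1 : |ε / 2| ≤ 1 := by rw [abs_of_pos (by positivity)]; linarith
  have habs2 : |-(ε / 2)| ≤ 1 := by rw [abs_neg]; exact habs1
  set P := Measure.pi fun _ : Fin N => ν with hP
  set Ψ : (Fin N → Ω) → ℝ := fun ω => ∑ e, (Phi N (Y e) B (ε / 2) ω + Phi N (Y e) B (-(ε / 2)) ω)
    with hΨ
  have hint1 : ∀ e, Integrable (Phi N (Y e) B (ε / 2)) P := fun e =>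
    (Phi_integral ν (hm e) hB (h0 e) (hYB e) (hmean e) habs1 N).1
  have hint2 : ∀ e, Integrable (Phi N (Y e) B (-(ε / 2))) P := fun e =>
    (Phi_integral ν (hm e) hB (h0 e) (hYB e) (hmean e) habs2 N).1
  have hΨint : Integrable Ψ P := integrable_finsetSum _ fun e _ => (hint1 e).add (hint2 e)
  have hΨle : ∫ ω, Ψ ω ∂P < 1 := by
    have hsum : ∫ ω, Ψ ω ∂P =
        ∑ e, ∫ ω, (Phi N (Y e) B (ε / 2) ω + Phi N (Y e) B (-(ε / 2)) ω) ∂P :=
      integral_finsetSum _ fun e _ => (hint1 e).add (hint2 e)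
    rw [hsum]
    calc ∑ e, ∫ ω, (Phi N (Y e) B (ε / 2) ω + Phi N (Y e) B (-(ε / 2)) ω) ∂P
        ≤ ∑ _e : ι, 2 * Real.exp (-(N * (ε / 2) ^ 2 / B)) := by
          apply Finset.sum_le_sum
          intro e _
          rw [integral_add (hint1 e) (hint2 e)]
          have h1 := (Phi_integral ν (hm e) hB (h0 e) (hYB e) (hmean e) habs1 N).2
          have h2 := (Phi_integral ν (hm e) hB (h0 e) (hYB e) (hmean e) habs2 N).2
          rw [neg_sq] at h2
          linarith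
      _ = 2 * (Fintype.card ι : ℝ) * Real.exp (-(N * (ε / 2) ^ 2 / B)) := by
          rw [Finset.sum_const, Finset.card_univ, nsmul_eq_mul]
          ring
      _ < 1 := hN
  have hex : ∃ ω, Ψ ω < 1 := by
    by_contra hcon
    push Not at hcon
    have : (1 : ℝ) ≤ ∫ ω, Ψ ω ∂P := by
      calc (1 : ℝ) = ∫ _ω, (1 : ℝ) ∂P := by simp
        _ ≤ ∫ ω, Ψ ω ∂P := integral_mono (integrable_const _) hΨint hcon
    linarith
  obtain ⟨ω, hω⟩ := hex
  refine ⟨ω, fun e => ?_⟩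
  have hle : Phi N (Y e) B (ε / 2) ω + Phi N (Y e) B (-(ε / 2)) ω < 1 := by
    refine lt_of_le_of_lt ?_ hω
    exact Finset.single_le_sum (f := fun e => Phi N (Y e) B (ε / 2) ω + Phi N (Y e) B (-(ε / 2)) ω)
      (fun e _ => (add_pos (Phi_pos _ _ _ _ _) (Phi_pos _ _ _ _ _)).le) (Finset.mem_univ e)
  have h1 : Phi N (Y e) B (ε / 2) ω < 1 := by linarith [Phi_pos N (Y e) B (-(ε / 2)) ω]
  have h2 : Phi N (Y e) B (-(ε / 2)) ω < 1 := by linarith [Phi_pos N (Y e) B (ε / 2) ω]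
  have h3 := Phi_lt_one hB h1
  have h4 := Phi_lt_one hB h2
  constructor
  · nlinarith
  · nlinarith

end Vale.Agent.P249
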