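import Mathlib
import Vale.Agent.P249.Count
import Vale.Agent.P249.Sample

/-!
The core embedding: a spanner density followed by sampling.
-/

open MeasureTheory Finset
open scoped ENNReal

namespace Vale.Agent.P249

variable {α V : Type*} [MeasurableSpace α] [Fintype V] [DecidableEq V]

/-- normalised increments -/
noncomputable def jj (F : V → α → ℝ) (l : V → V → ℝ) (p : ℝ) (e : V × V) (ω : α) : ℝ :=
  |F e.1 ω - F e.2 ω| ^ p / l e.1 e.2 ^ p

/-- the density -/
noncomputable def WW (G : SimpleGraph V) [DecidableRel G.Adj] (F : V → α → ℝ) (l : V → V → ℝ)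
    (p : ℝ) (ω : α) : ℝ :=
  ∑ e : V × V, if G.Adj e.1 e.2 then jj F l p e ω else 0

omit [MeasurableSpace α] [Fintype V] [DecidableEq V] in
lemma jj_nonneg {F : V → α → ℝ} {l : V → V → ℝ} {p : ℝ} (hl : ∀ u v, 0 ≤ l u v) (e : V × V)
    (ω : α) : 0 ≤ jj F l p e ω := by
  unfold jj
  have := hl e.1 e.2
  positivity

omit [MeasurableSpace α] [DecidableEq V] in
lemma WW_nonneg {G : SimpleGraph V} [DecidableRel G.Adj] {F : V → α → ℝ} {l : V → V → ℝ} {p : ℝ}
    (hl : ∀ u v, 0 ≤ l u v) (ω : α) : 0 ≤ WW G F l p ω := by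
  unfold WW
  apply Finset.sum_nonneg
  intro e _
  split_ifs
  · exact jj_nonneg hl e ω
  · exact le_rfl

omit [MeasurableSpace α] [Fintype V] [DecidableEq V] in
lemma telescope {G : SimpleGraph V} (F : V → α → ℝ) (ω : α) {x y : V} (w : G.Walk x y) :
    |F x ω - F y ω| ≤ (w.darts.map fun d => |F d.fst ω - F d.snd ω|).sum := by
  induction w with
  | nil => simp
  | @cons u v y h p ih =>
    simp only [SimpleGraph.Walk.darts_cons, List.map_cons, List.sum_cons]
    calc |F u ω - F y ω| = |(F u ω - F v ω) + (F v ω - F y ω)| := by ring_nf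
      _ ≤ |F u ω - F v ω| + |F v ω - F y ω| := abs_add_le _ _
      _ ≤ _ := by linarith

omit [MeasurableSpace α] in
/-- The pointwise bound. -/
lemma pointwise_bound {G : SimpleGraph V} [DecidableRel G.Adj] {F : V → α → ℝ} {l : V → V → ℝ}
    {p : ℝ} (hp : 1 ≤ p) (hl0 : ∀ u v, 0 ≤ l u v) (hl : ∀ u v, u ≠ v → 0 < l u v) {m : ℕ} {x y : V}
    (w : G.Walk x y) (hwm : w.length ≤ m) (hw : ∀ d ∈ w.darts, l d.fst d.snd ≤ l x y) (ω : α) :
    |F x ω - F y ω| ^ p ≤ (m : ℝ) ^ (p - 1) * (l x y ^ p * WW G F l p ω) := by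
  classical
  set q := w.bypass with hq
  have hqp : q.IsPath := w.bypass_isPath
  have hqm : q.length ≤ m := (w.length_bypass_le_length).trans hwm
  have hqw : ∀ d ∈ q.darts, l d.fst d.snd ≤ l x y := fun d hd => hw d (w.darts_bypass_subset_darts hd)
  have hnodup : q.darts.Nodup := by
    have := hqp.isTrail.edges_nodup
    unfold SimpleGraph.Walk.edges at this
    exact this.of_map
  set D := q.darts.toFinset with hD
  have hDc : (D.card : ℝ) ≤ m := by
    rw [hD, List.toFinset_card_of_nodup hnodup, SimpleGraph.Walk.length_darts]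
    exact_mod_cast hqm
  have h1 : |F x ω - F y ω| ≤ ∑ d ∈ D, |F d.fst ω - F d.snd ω| := by
    have := telescope F ω q
    rwa [← List.sum_toFinset _ hnodup] at this
  have h2 : |F x ω - F y ω| ^ p ≤ (D.card : ℝ) ^ (p - 1) *
      ∑ d ∈ D, |F d.fst ω - F d.snd ω| ^ p :=
    (Real.rpow_le_rpow (abs_nonneg _) h1 (by linarith)).trans
      (Real.rpow_sum_le_const_mul_sum_rpow_of_nonneg D hp fun _ _ => abs_nonneg _)
  have h3 : ∀ d ∈ D, |F d.fst ω - F d.snd ω| ^ p ≤ l x y ^ p * jj F l p d.toProd ω := by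
    intro d hd
    have hd' : d ∈ q.darts := List.mem_toFinset.mp hd
    have hld := hl d.fst d.snd d.adj.ne
    have hle := hqw d hd'
    have h4 : l d.fst d.snd ^ p ≤ l x y ^ p := Real.rpow_le_rpow hld.le hle (by linarith)
    have h5 : |F d.fst ω - F d.snd ω| ^ p = l d.fst d.snd ^ p * jj F l p d.toProd ω := by
      unfold jj
      have : l d.fst d.snd ^ p ≠ 0 := (Real.rpow_pos_of_pos hld p).ne'
      field_simp
    rw [h5]
    exact mul_le_mul_of_nonneg_right h4 (jj_nonneg hl0 _ _)
  have h6 : ∑ d ∈ D, jj F l p d.toProd ω ≤ WW G F l p ω := by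
    unfold WW
    have hinj : Set.InjOn (fun d : G.Dart => d.toProd) (D : Set G.Dart) := by
      intro a _ b _ hab
      exact SimpleGraph.Dart.toProd_injective hab
    have h7 : ∑ d ∈ D, jj F l p d.toProd ω =
        ∑ e ∈ D.image (fun d : G.Dart => d.toProd),
          (if G.Adj e.1 e.2 then jj F l p e ω else 0) := by
      rw [Finset.sum_image hinj]
      apply Finset.sum_congr rfl
      intro d _
      rw [if_pos d.adj]
    rw [h7]
    apply Finset.sum_le_sum_of_subset_of_nonneg (Finset.subset_univ _)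
    intro e _ _
    split_ifs
    · exact jj_nonneg hl0 e ω
    · exact le_rfl
  calc |F x ω - F y ω| ^ p ≤ (D.card : ℝ) ^ (p - 1) * ∑ d ∈ D, |F d.fst ω - F d.snd ω| ^ p := h2
    _ ≤ (D.card : ℝ) ^ (p - 1) * ∑ d ∈ D, l x y ^ p * jj F l p d.toProd ω := by
        apply mul_le_mul_of_nonneg_left (Finset.sum_le_sum h3)
        positivity
    _ = (D.card : ℝ) ^ (p - 1) * (l x y ^ p * ∑ d ∈ D, jj F l p d.toProd ω) := by
        rw [← Finset.mul_sum]
    _ ≤ (m : ℝ) ^ (p - 1) * (l x y ^ p * WW G F l p ω) := by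
        apply mul_le_mul
        · exact Real.rpow_le_rpow (by positivity) hDc (by linarith)
        · exact mul_le_mul_of_nonneg_left h6 (Real.rpow_nonneg (hl0 _ _) _)
        · have : 0 ≤ ∑ d ∈ D, jj F l p d.toProd ω :=
            Finset.sum_nonneg fun d _ => jj_nonneg hl0 _ _
          have := Real.rpow_nonneg (hl0 x y) p
          positivity
        · positivity

/-- The core embedding. -/
theorem embed_core (μ : Measure α) (F : V → α → ℝ) (hF : ∀ x, Measurable (F x)) (l : V → V → ℝ)
    {p : ℝ} (hp : 1 ≤ p) (hsymm : ∀ u v, l u v = l v u) (hl0 : ∀ u v, 0 ≤ l u v)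
    (hl : ∀ u v, u ≠ v → 0 < l u v)
    (hI : ∀ u v, u ≠ v → Integrable (fun ω => |F u ω - F v ω| ^ p) μ ∧
      ∫ ω, |F u ω - F v ω| ^ p ∂μ = l u v ^ p)
    (hn : 2 ≤ Fintype.card V) {k : ℕ} (hk : Fintype.card V < 2 ^ k) {ε : ℝ} (hε : 0 < ε)
    (hε1 : ε ≤ 1) {N : ℕ}
    (hN : 2 * ((Fintype.card V : ℝ) * Fintype.card V) * Real.exp (-(N * (ε / 2) ^ 2 /
      (((2 * k : ℕ) : ℝ) ^ (p - 1) * (4 * Fintype.card V)))) < 1) :
    ∃ (f : V → Fin N → ℝ) (c : ℝ), 0 < c ∧ ∀ x y, x ≠ y →
      (1 - ε) * N * c * l x y ^ p ≤ ∑ i, |f x i - f y i| ^ p ∧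
      ∑ i, |f x i - f y i| ^ p ≤ (1 + ε) * N * c * l x y ^ p := by
  classical
  have hk1 : 1 ≤ k := by
    rcases Nat.eq_zero_or_pos k with rfl | h
    · simp at hk; omega
    · exact h
  have hp0 : 0 < p := by linarith
  obtain ⟨G, hG, hGw⟩ := exists_greedy (V := V) (Sym2.lift ⟨l, hsymm⟩) (L := 2 * k - 1) (by omega)
    Finset.univ
  have h2k : 2 * k - 1 + 1 = 2 * k := by omega
  rw [h2k] at hG
  set W := WW G F l p with hW
  have hW0 : ∀ ω, 0 ≤ W ω := fun ω => WW_nonneg hl0 ω
  -- pointwise bound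
  have hpt : ∀ x y, x ≠ y → ∀ ω, |F x ω - F y ω| ^ p ≤
      ((2 * k : ℕ) : ℝ) ^ (p - 1) * (l x y ^ p * W ω) := by
    intro x y hxy ω
    obtain ⟨w, hwL, hwe⟩ := hGw x y hxy (Finset.mem_univ _)
    refine pointwise_bound hp hl0 hl w (by omega) ?_ ω
    intro d hd
    have : d.edge ∈ w.edges := List.mem_map_of_mem hd
    have h := hwe _ this
    have h1 : Sym2.lift ⟨l, hsymm⟩ d.edge = l d.fst d.snd := by
      rcases d with ⟨⟨a, b⟩, hab⟩
      rfl
    rw [h1] at h
    simpa using h
  -- measurability and integrals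
  have hjm : ∀ e : V × V, Measurable (jj F l p e) := by
    intro e
    unfold jj
    exact ((((hF e.1).sub (hF e.2)).abs).pow_const p).div_const _
  have hWm : Measurable W := by
    rw [hW]
    unfold WW
    apply Finset.measurable_sum
    intro e _
    split_ifs
    · exact hjm e
    · exact measurable_const
  have hjI : ∀ e : V × V, e.1 ≠ e.2 → Integrable (jj F l p e) μ ∧ ∫ ω, jj F l p e ω ∂μ = 1 := by
    intro e he
    obtain ⟨h1, h2⟩ := hI e.1 e.2 he
    refine ⟨?_, ?_⟩
    · unfold jj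
      exact h1.div_const _
    · unfold jj
      rw [integral_div, h2]
      exact div_self (Real.rpow_pos_of_pos (hl _ _ he) p).ne'
  have hWI : Integrable W μ := by
    rw [hW]
    unfold WW
    apply integrable_finsetSum
    intro e _
    split_ifs with h
    · exact (hjI e h.ne).1
    · exact integrable_zero _ _ _
  set Z : ℝ := ∫ ω, W ω ∂μ with hZ
  have hZle : Z ≤ 4 * Fintype.card V := by
    have h1 : Z = ∑ e : V × V, (if G.Adj e.1 e.2 then (1 : ℝ) else 0) := by
      rw [hZ, hW]
      unfold WW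
      rw [integral_finsetSum]
      · apply Finset.sum_congr rfl
        intro e _
        split_ifs with h
        · exact (hjI e h.ne).2
        · simp
      · intro e _
        split_ifs with h
        · exact (hjI e h.ne).1
        · exact integrable_zero _ _ _
    have h2 := card_adj_le hG hk Finset.univ
    rw [Finset.card_univ] at h2
    have h3 : ∑ e : V × V, (if G.Adj e.1 e.2 then (1 : ℝ) else 0) =
        ((∑ v : V, (Finset.univ.filter (G.Adj v)).card : ℕ) : ℝ) := by
      rw [Fintype.sum_prod_type]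
      push_cast
      apply Finset.sum_congr rfl
      intro v _
      rw [Finset.sum_ite, Finset.sum_const_zero, add_zero, Finset.sum_const, nsmul_eq_mul, mul_one]
    rw [h1, h3]
    exact_mod_cast h2
  have hZpos : 0 < Z := by
    obtain ⟨x, y, hxy⟩ := Fintype.one_lt_card_iff.mp (by omega : 1 < Fintype.card V)
    have h1 := (hI x y hxy).2
    have h2 : l x y ^ p ≤ ((2 * k : ℕ) : ℝ) ^ (p - 1) * (l x y ^ p * Z) := by
      rw [← h1, hZ, ← integral_const_mul, ← integral_const_mul]
      have h3 : l x y ^ p = ∫ ω, |F x ω - F y ω| ^ p ∂μ := h1.symm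
      apply integral_mono (hI x y hxy).1
      · exact (hWI.const_mul _).const_mul _
      · intro ω
        have := hpt x y hxy ω
        rw [← h1] at this
        exact this
    have h3 : 0 < l x y ^ p := Real.rpow_pos_of_pos (hl x y hxy) p
    by_contra hcon
    push Not at hcon
    have h4 : ((2 * k : ℕ) : ℝ) ^ (p - 1) * (l x y ^ p * Z) ≤ 0 := by
      apply mul_nonpos_of_nonneg_of_nonpos (by positivity)
      exact mul_nonpos_of_nonneg_of_nonpos h3.le hcon
    linarith
  set B : ℝ := ((2 * k : ℕ) : ℝ) ^ (p - 1) * (4 * Fintype.card V) with hB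
  have h2k1 : (1 : ℝ) ≤ ((2 * k : ℕ) : ℝ) ^ (p - 1) := by
    apply Real.one_le_rpow _ (by linarith)
    have : 1 ≤ 2 * k := by omega
    exact_mod_cast this
  have hBpos : 0 < B := by
    rw [hB]
    have : (0 : ℝ) < Fintype.card V := by
      have : 0 < Fintype.card V := by omega
      exact_mod_cast this
    positivity
  have hB1 : 1 ≤ B := by
    have h1 : (1 : ℝ) ≤ 4 * Fintype.card V := by
      have : 1 ≤ 4 * Fintype.card V := by omega
      exact_mod_cast this
    rw [hB]
    nlinarith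
  -- the probability measure
  set dens : α → NNReal := fun ω => Real.toNNReal (W ω / Z) with hdens
  have hdm : Measurable dens := (hWm.div_const Z).real_toNNReal
  set ν : Measure α := μ.withDensity (fun ω => (dens ω : ℝ≥0∞)) with hν
  have hdcoe : ∀ ω, ((dens ω : NNReal) : ℝ) = W ω / Z := fun ω =>
    Real.coe_toNNReal _ (div_nonneg (hW0 ω) hZpos.le)
  have hνprob : IsProbabilityMeasure ν := by
    constructor
    rw [hν, withDensity_apply _ MeasurableSet.univ, Measure.restrict_univ]
    have h1 : ∀ ω, ((dens ω : NNReal) : ℝ≥0∞) = ENNReal.ofReal (W ω / Z) := fun ω => rfl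
    simp_rw [h1]
    rw [← ofReal_integral_eq_lintegral_ofReal (hWI.div_const Z)
      (Filter.Eventually.of_forall fun ω => div_nonneg (hW0 ω) hZpos.le), integral_div, ← hZ,
      div_self hZpos.ne', ENNReal.ofReal_one]
  -- the functions
  set Y : V × V → α → ℝ := fun e ω => if e.1 = e.2 then 1 else jj F l p e ω * Z / W ω with hY
  have hYm : ∀ e, Measurable (Y e) := by
    intro e
    simp only [hY]
    split_ifs
    · exact measurable_const
    · exact ((hjm e).mul_const Z).div hWm
  have hY0 : ∀ e ω, 0 ≤ Y e ω := by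
    intro e ω
    simp only [hY]
    split_ifs
    · exact zero_le_one
    · exact div_nonneg (mul_nonneg (jj_nonneg hl0 e ω) hZpos.le) (hW0 ω)
  have hjW : ∀ e : V × V, e.1 ≠ e.2 → ∀ ω, jj F l p e ω ≤ ((2 * k : ℕ) : ℝ) ^ (p - 1) * W ω := by
    intro e he ω
    unfold jj
    rw [div_le_iff₀ (Real.rpow_pos_of_pos (hl _ _ he) p)]
    have := hpt e.1 e.2 he ω
    linarith
  have hYB : ∀ e ω, Y e ω ≤ B := by
    intro e ω
    simp only [hY]
    split_ifs with he
    · exact hB1
    · rcases (hW0 ω).eq_or_lt with h0 | hpos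
      · rw [← h0, div_zero]; exact hBpos.le
      · rw [div_le_iff₀ hpos]
        have h1 := hjW e he ω
        calc jj F l p e ω * Z ≤ (((2 * k : ℕ) : ℝ) ^ (p - 1) * W ω) * (4 * Fintype.card V) :=
              mul_le_mul h1 hZle hZpos.le (by positivity)
          _ = B * W ω := by rw [hB]; ring
  have hYmean : ∀ e, ∫ ω, Y e ω ∂ν = 1 := by
    intro e
    by_cases he : e.1 = e.2
    · simp only [hY, if_pos he]
      simp
    · rw [hν, integral_withDensity_eq_integral_smul hdm]
      rw [← (hjI e he).2]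
      apply integral_congr_ae
      refine Filter.Eventually.of_forall fun ω => ?_
      simp only [hY, if_neg he, NNReal.smul_def, smul_eq_mul, hdcoe]
      rcases (hW0 ω).eq_or_lt with h0 | hpos
      · rw [← h0]
        have h1 := hjW e he ω
        rw [← h0, mul_zero] at h1
        have h2 := jj_nonneg (F := F) (p := p) hl0 e ω
        have h3 : jj F l p e ω = 0 := le_antisymm h1 h2
        rw [h3]; simp
      · field_simp
  have hcard : Fintype.card (V × V) = Fintype.card V * Fintype.card V := Fintype.card_prod V V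
  obtain ⟨ω, hω⟩ := exists_sample ν Y hYm hBpos hY0 hYB hYmean hε hε1 (N := N) (by
    rw [hcard]; push_cast; exact hN)
  refine ⟨fun x i => F x (ω i) * (W (ω i)) ^ (-1 / p), 1 / Z, by positivity, ?_⟩
  intro x y hxy
  have hkey : ∀ i, |F x (ω i) * (W (ω i)) ^ (-1 / p) - F y (ω i) * (W (ω i)) ^ (-1 / p)| ^ p =
      1 / Z * l x y ^ p * Y (x, y) (ω i) := by
    intro i
    simp only [hY, if_neg hxy]
    rw [← sub_mul, abs_mul, Real.mul_rpow (abs_nonneg _) (abs_nonneg _)]
    have hlp : 0 < l x y ^ p := Real.rpow_pos_of_pos (hl x y hxy) p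
    rcases (hW0 (ω i)).eq_or_lt with h0 | hpos
    · rw [← h0, Real.zero_rpow (by
        apply div_ne_zero (by norm_num) hp0.ne'), abs_zero, Real.zero_rpow hp0.ne']
      simp
    · rw [abs_of_pos (Real.rpow_pos_of_pos hpos _), ← Real.rpow_mul hpos.le]
      have : -1 / p * p = -1 := by field_simp
      rw [this, Real.rpow_neg_one]
      unfold jj
      simp only
      field_simp
  simp_rw [hkey]
  rw [← Finset.mul_sum]
  obtain ⟨h1, h2⟩ := hω (x, y)
  have hlp : 0 < 1 / Z * l x y ^ p := by
    have := Real.rpow_pos_of_pos (hl x y hxy) p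
    positivity
  constructor
  · have := mul_le_mul_of_nonneg_left h1.le hlp.le
    linarith
  · have := mul_le_mul_of_nonneg_left h2.le hlp.le
    linarith

end Vale.Agent.P249
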