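import Mathlib

/-!
# P249: definitions
-/

open MeasureTheory
open scoped ENNReal

namespace Vale.Agent.P249

universe u

/-- The map `f : X → ℓ_p^d` has distortion at most `D`: for some scale `s > 0`,
`s ‖x - x'‖ ≤ ‖f x - f x'‖_p ≤ D s ‖x - x'‖` for all `x, x' ∈ X`. -/
def DistortionLE {E : Type u} [NormedAddCommGroup E] (p : ℝ≥0∞) [Fact (1 ≤ p)] {d : ℕ}
    (X : Finset E) (f : X → PiLp p (fun _ : Fin d => ℝ)) (D : ℝ) : Prop :=
  ∃ s : ℝ, 0 < s ∧ ∀ x x' : X, s * ‖(x : E) - (x' : E)‖ ≤ ‖f x - f x'‖ ∧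
    ‖f x - f x'‖ ≤ D * s * ‖(x : E) - (x' : E)‖

/-- Every `n`-point subset of every space `L_p(μ)` admits a map into `ℓ_p^d` with distortion
at most `D`. -/
def Admissible (p : ℝ≥0∞) [Fact (1 ≤ p)] (n : ℕ) (D : ℝ) (d : ℕ) : Prop :=
  ∀ (α : Type u) (_ : MeasurableSpace α) (μ : Measure α) (X : Finset (Lp ℝ p μ)), X.card = n →
    ∃ f : X → PiLp p (fun _ : Fin d => ℝ), DistortionLE p X f D

/-- `d_p(n, D)`: the least `d` such that every `n`-point subset of every `L_p` space admits a map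
into `ℓ_p^d` with distortion at most `D`. -/
noncomputable def dimL (p : ℝ≥0∞) [Fact (1 ≤ p)] (n : ℕ) (D : ℝ) : ℕ :=
  sInf {d : ℕ | Admissible.{u} p n D d}

end Vale.Agent.P249
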