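import Mathlib
import Vale.Agent.P226.PL

/-!
Gaussian deviation inequality for Lipschitz functions (a form of property (τ)).
-/

open MeasureTheory ProbabilityTheory
open scoped ENNReal

namespace Vale.Agent.P249

/-- Property (τ) with cost `Q`. -/
def TauProp {E : Type*} [MeasurableSpace E] (μ : Measure E) (Q : E → E → ℝ) : Prop :=
  ∀ (f g : E → ℝ≥0∞), Measurable f → Measurable g → ∀ A : ℝ≥0∞,
    (∀ x y, f x * g y ≤ A * ENNReal.ofReal (Real.exp (Q x y))) →
    (∫⁻ x, f x ∂μ) * (∫⁻ x, g x ∂μ) ≤ A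

theorem tau_gaussian : TauProp (gaussianReal 0 1) (fun x y : ℝ => (x - y) ^ 2 / 4) := by
  intro f g hf hg A H
  rw [gaussianReal_of_var_ne_zero 0 one_ne_zero]
  set φ : ℝ → ℝ≥0∞ := gaussianPDF 0 1 with hφ
  have hφm : Measurable φ := measurable_gaussianPDF 0 1
  rw [lintegral_withDensity_eq_lintegral_mul _ hφm hf,
    lintegral_withDensity_eq_lintegral_mul _ hφm hg]
  have hkey : ∀ x y : ℝ, (φ x * f x) * (φ y * g y) ≤
      A * (φ ((1 - 1 / 2 : ℝ) • x + (1 / 2 : ℝ) • y)) ^ 2 := by
    intro x y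
    have h1 : φ x * φ y * ENNReal.ofReal (Real.exp ((x - y) ^ 2 / 4)) =
        (φ ((1 - 1 / 2 : ℝ) • x + (1 / 2 : ℝ) • y)) ^ 2 := by
      rw [hφ]
      simp only [gaussianPDF, gaussianPDFReal, NNReal.coe_one, mul_one, sub_zero, smul_eq_mul]
      rw [← ENNReal.ofReal_mul (by positivity), ← ENNReal.ofReal_mul (by positivity),
        ← ENNReal.ofReal_pow (by positivity)]
      congr 1
      have e1 : Real.exp (-x ^ 2 / 2) * Real.exp (-y ^ 2 / 2) * Real.exp ((x - y) ^ 2 / 4) =
          Real.exp (-((1 - 1 / 2) * x + 1 / 2 * y) ^ 2 / 2) ^ 2 := by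
        rw [← Real.exp_add, ← Real.exp_add, ← Real.exp_nat_mul]
        congr 1
        push_cast
        ring
      calc (Real.sqrt (2 * Real.pi))⁻¹ * Real.exp (-x ^ 2 / 2) *
            ((Real.sqrt (2 * Real.pi))⁻¹ * Real.exp (-y ^ 2 / 2)) * Real.exp ((x - y) ^ 2 / 4)
          = ((Real.sqrt (2 * Real.pi))⁻¹) ^ 2 * (Real.exp (-x ^ 2 / 2) *
            Real.exp (-y ^ 2 / 2) * Real.exp ((x - y) ^ 2 / 4)) := by ring
        _ = _ := by rw [e1]; ring
    calc (φ x * f x) * (φ y * g y) = (φ x * φ y) * (f x * g y) := by ring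
      _ ≤ (φ x * φ y) * (A * ENNReal.ofReal (Real.exp ((x - y) ^ 2 / 4))) := by
          exact mul_le_mul' le_rfl (H x y)
      _ = A * (φ x * φ y * ENNReal.ofReal (Real.exp ((x - y) ^ 2 / 4))) := by ring
      _ = _ := by rw [h1]
  have hPL := P226.plprop_volume_real (1 / 2) (by norm_num) (by norm_num) (fun x => φ x * f x)
    (fun x => φ x * g x) (fun x => A ^ (1 / 2 : ℝ) * φ x) (hφm.mul hf) (hφm.mul hg)
    (hφm.const_mul _) (by
      intro x y
      have h2 := hkey x y
      have h3 : ((φ x * f x) * (φ y * g y)) ^ (1 / 2 : ℝ) ≤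
          (A * (φ ((1 - 1 / 2 : ℝ) • x + (1 / 2 : ℝ) • y)) ^ 2) ^ (1 / 2 : ℝ) :=
        ENNReal.rpow_le_rpow h2 (by norm_num)
      rw [ENNReal.mul_rpow_of_nonneg _ _ (by norm_num), ENNReal.mul_rpow_of_nonneg A _ (by norm_num),
        ← ENNReal.rpow_natCast, ← ENNReal.rpow_mul] at h3
      norm_num at h3 ⊢
      exact h3)
  have hint : ∫⁻ x, A ^ (1 / 2 : ℝ) * φ x = A ^ (1 / 2 : ℝ) := by
    rw [lintegral_const_mul _ hφm, hφ, lintegral_gaussianPDF_eq_one 0 one_ne_zero, mul_one]
  rw [hint] at hPL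
  have h4 := ENNReal.rpow_le_rpow hPL (z := 2) (by norm_num)
  rw [ENNReal.mul_rpow_of_nonneg _ _ (by norm_num), ← ENNReal.rpow_mul, ← ENNReal.rpow_mul,
    ← ENNReal.rpow_mul] at h4
  norm_num at h4
  exact h4

theorem TauProp.prod {E F : Type*} [MeasurableSpace E] [MeasurableSpace F] {μ : Measure E}
    {ν : Measure F} [SFinite μ] [SFinite ν] {Q : E → E → ℝ} {R : F → F → ℝ} (hμ : TauProp μ Q)
    (hν : TauProp ν R) :
    TauProp (μ.prod ν) (fun p q : E × F => Q p.1 q.1 + R p.2 q.2) := by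
  intro f g hf hg A H
  rw [lintegral_prod _ hf.aemeasurable, lintegral_prod _ hg.aemeasurable]
  apply hμ _ _ hf.lintegral_prod_right' hg.lintegral_prod_right' A
  intro x y
  apply hν _ _ (hf.comp measurable_prodMk_left) (hg.comp measurable_prodMk_left)
  intro x' y'
  refine (H (x, x') (y, y')).trans (le_of_eq ?_)
  rw [Real.exp_add, ENNReal.ofReal_mul (Real.exp_pos _).le, mul_assoc]

theorem TauProp.map {E F : Type*} [MeasurableSpace E] [MeasurableSpace F] {μ : Measure E}
    {Q : E → E → ℝ} {R : F → F → ℝ} (hμ : TauProp μ Q) {L : E → F} (hL : Measurable L)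
    (hQ : ∀ x y, R (L x) (L y) = Q x y) : TauProp (μ.map L) R := by
  intro f g hf hg A H
  rw [lintegral_map hf hL, lintegral_map hg hL]
  apply hμ _ _ (hf.comp hL) (hg.comp hL)
  intro x y
  have := H (L x) (L y)
  rwa [hQ] at this

/-- The standard Gaussian measure on `ℝ^k`. -/
noncomputable abbrev gam (k : ℕ) : Measure (Fin k → ℝ) :=
  Measure.pi (fun _ : Fin k => gaussianReal 0 1)

theorem tau_gam (k : ℕ) : TauProp (gam k) (fun x y => (∑ i, (x i - y i) ^ 2) / 4) := by
  induction k with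
  | zero =>
    intro f g hf hg A H
    have e : ∀ u : (Fin 0 → ℝ) → ℝ≥0∞, ∫⁻ x, u x ∂(gam 0) = u 0 := by
      intro u
      unfold gam
      rw [Measure.pi_of_empty (fun _ : Fin 0 => gaussianReal 0 1) 0]
      exact lintegral_dirac _ _
    rw [e, e]
    have := H 0 0
    simpa using this
  | succ n ih =>
    have hmp := (measurePreserving_piFinSuccAbove (fun _ : Fin (n + 1) => gaussianReal 0 1) 0).symm
    have hprod := TauProp.prod tau_gaussian ih
    have h2 := hprod.map (R := fun x y : Fin (n + 1) → ℝ => (∑ i, (x i - y i) ^ 2) / 4)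
      hmp.measurable (by
        intro x y
        simp only [MeasurableEquiv.piFinSuccAbove]
        rw [Fin.sum_univ_succ]
        simp
        ring)
    have e : ((gaussianReal 0 1).prod (gam n)).map
        (MeasurableEquiv.piFinSuccAbove (fun _ : Fin (n + 1) => ℝ) 0).symm = gam (n + 1) :=
      hmp.map_eq
    rw [e] at h2
    exact h2

lemma laplace_bound {k : ℕ} {G : (Fin k → ℝ) → ℝ} (hG : Measurable G) {L : ℝ}
    (hLip : ∀ x y, |G x - G y| ≤ L * Real.sqrt (∑ i, (x i - y i) ^ 2)) (t : ℝ) :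
    (∫⁻ x, ENNReal.ofReal (Real.exp (t * G x)) ∂(gam k)) *
      (∫⁻ x, ENNReal.ofReal (Real.exp (-(t * G x))) ∂(gam k)) ≤
      ENNReal.ofReal (Real.exp (t ^ 2 * L ^ 2)) := by
  apply tau_gam k
  · fun_prop
  · fun_prop
  intro x y
  rw [← ENNReal.ofReal_mul (Real.exp_pos _).le, ← ENNReal.ofReal_mul (Real.exp_pos _).le,
    ← Real.exp_add, ← Real.exp_add]
  apply ENNReal.ofReal_le_ofReal
  apply Real.exp_le_exp.mpr
  set r := Real.sqrt (∑ i, (x i - y i) ^ 2) with hr
  have hrs : r ^ 2 = ∑ i, (x i - y i) ^ 2 :=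
    Real.sq_sqrt (Finset.sum_nonneg fun i _ => sq_nonneg _)
  have h1 : t * G x + -(t * G y) ≤ |t| * (L * r) := by
    calc t * G x + -(t * G y) = t * (G x - G y) := by ring
      _ ≤ |t * (G x - G y)| := le_abs_self _
      _ = |t| * |G x - G y| := abs_mul _ _
      _ ≤ |t| * (L * r) := mul_le_mul_of_nonneg_left (hLip x y) (abs_nonneg _)
  beta_reduce
  rw [← hrs]
  have h2 := sq_nonneg (|t| * L - r / 2)
  have h3 : |t| ^ 2 = t ^ 2 := sq_abs t
  nlinarith

lemma rpow_le_exp {t q : ℝ} (ht : 0 ≤ t) (hq : 0 < q) : t ^ q ≤ q ^ q * Real.exp t := by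
  have h1 : t / q ≤ Real.exp (t / q) := by
    have := Real.add_one_le_exp (t / q)
    linarith
  have h2 : (t / q) ^ q ≤ Real.exp (t / q) ^ q :=
    Real.rpow_le_rpow (by positivity) h1 hq.le
  rw [← Real.exp_mul, div_mul_cancel₀ _ hq.ne', Real.div_rpow ht hq.le,
    div_le_iff₀ (Real.rpow_pos_of_pos hq q)] at h2
  linarith

/-- Moments of the oscillation of a Lipschitz function under the Gaussian measure. -/
theorem moment_bound {k : ℕ} {G : (Fin k → ℝ) → ℝ} (hG : Measurable G) {L : ℝ} (hL : 0 < L)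
    (hLip : ∀ x y, |G x - G y| ≤ L * Real.sqrt (∑ i, (x i - y i) ^ 2)) {q : ℝ} (hq : 0 < q) :
    ∫⁻ x, ∫⁻ y, ENNReal.ofReal (|G x - G y| ^ q) ∂(gam k) ∂(gam k) ≤
      ENNReal.ofReal (2 * Real.exp 1 * (q ^ q * L ^ q)) := by
  have hpt : ∀ x y, ENNReal.ofReal (|G x - G y| ^ q) ≤
      ENNReal.ofReal (q ^ q * L ^ q) *
        (ENNReal.ofReal (Real.exp (1 / L * G x)) * ENNReal.ofReal (Real.exp (-(1 / L * G y))) +
         ENNReal.ofReal (Real.exp (-(1 / L * G x))) * ENNReal.ofReal (Real.exp (1 / L * G y))) := by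
    intro x y
    rw [← ENNReal.ofReal_mul (Real.exp_pos _).le, ← ENNReal.ofReal_mul (Real.exp_pos _).le,
      ← ENNReal.ofReal_add (by positivity) (by positivity), ← ENNReal.ofReal_mul (by positivity)]
    apply ENNReal.ofReal_le_ofReal
    rw [← Real.exp_add, ← Real.exp_add]
    have h1 : |G x - G y| = L * (|G x - G y| / L) := by field_simp
    have h2 := rpow_le_exp (t := |G x - G y| / L) (by positivity) hq
    calc |G x - G y| ^ q = L ^ q * (|G x - G y| / L) ^ q := by
          rw [← Real.mul_rpow hL.le (by positivity), ← h1]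
      _ ≤ L ^ q * (q ^ q * Real.exp (|G x - G y| / L)) :=
          mul_le_mul_of_nonneg_left h2 (by positivity)
      _ = q ^ q * L ^ q * Real.exp (|G x - G y| / L) := by ring
      _ ≤ q ^ q * L ^ q * (Real.exp (1 / L * G x + -(1 / L * G y)) +
          Real.exp (-(1 / L * G x) + 1 / L * G y)) := by
          apply mul_le_mul_of_nonneg_left _ (by positivity)
          rcases abs_cases (G x - G y) with ⟨h3, -⟩ | ⟨h3, -⟩
          · rw [h3]
            have : (G x - G y) / L = 1 / L * G x + -(1 / L * G y) := by ring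
            rw [this]
            linarith [Real.exp_pos (-(1 / L * G x) + 1 / L * G y)]
          · rw [h3]
            have : -(G x - G y) / L = -(1 / L * G x) + 1 / L * G y := by ring
            rw [this]
            linarith [Real.exp_pos (1 / L * G x + -(1 / L * G y))]
  set a := ∫⁻ x, ENNReal.ofReal (Real.exp (1 / L * G x)) ∂(gam k) with ha
  set b := ∫⁻ x, ENNReal.ofReal (Real.exp (-(1 / L * G x))) ∂(gam k) with hb
  have hm1 : Measurable fun x => ENNReal.ofReal (Real.exp (1 / L * G x)) := by fun_prop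
  have hm2 : Measurable fun x => ENNReal.ofReal (Real.exp (-(1 / L * G x))) := by fun_prop
  have hab : a * b ≤ ENNReal.ofReal (Real.exp 1) := by
    have := laplace_bound hG hLip (1 / L)
    have h1 : (1 / L) ^ 2 * L ^ 2 = 1 := by field_simp
    rwa [h1] at this
  calc ∫⁻ x, ∫⁻ y, ENNReal.ofReal (|G x - G y| ^ q) ∂(gam k) ∂(gam k)
      ≤ ∫⁻ x, ∫⁻ y, ENNReal.ofReal (q ^ q * L ^ q) *
        (ENNReal.ofReal (Real.exp (1 / L * G x)) * ENNReal.ofReal (Real.exp (-(1 / L * G y))) +
         ENNReal.ofReal (Real.exp (-(1 / L * G x))) * ENNReal.ofReal (Real.exp (1 / L * G y)))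
          ∂(gam k) ∂(gam k) := lintegral_mono fun x => lintegral_mono fun y => hpt x y
    _ = ENNReal.ofReal (q ^ q * L ^ q) * (a * b + b * a) := by
        have h1 : ∀ x, ∫⁻ y, ENNReal.ofReal (q ^ q * L ^ q) *
            (ENNReal.ofReal (Real.exp (1 / L * G x)) * ENNReal.ofReal (Real.exp (-(1 / L * G y))) +
             ENNReal.ofReal (Real.exp (-(1 / L * G x))) * ENNReal.ofReal (Real.exp (1 / L * G y)))
            ∂(gam k) = ENNReal.ofReal (q ^ q * L ^ q) *
            (ENNReal.ofReal (Real.exp (1 / L * G x)) * b +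
              ENNReal.ofReal (Real.exp (-(1 / L * G x))) * a) := by
          intro x
          rw [lintegral_const_mul _ (by fun_prop), lintegral_add_left (by fun_prop),
            lintegral_const_mul _ hm2, lintegral_const_mul _ hm1]
        simp_rw [h1]
        rw [lintegral_const_mul _ (by fun_prop), lintegral_add_left (by fun_prop),
          lintegral_mul_const _ hm1, lintegral_mul_const _ hm2]
    _ ≤ ENNReal.ofReal (q ^ q * L ^ q) * (ENNReal.ofReal (Real.exp 1) +
          ENNReal.ofReal (Real.exp 1)) := by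
        gcongr
        rw [mul_comm]; exact hab
    _ = ENNReal.ofReal (2 * Real.exp 1 * (q ^ q * L ^ q)) := by
        rw [← ENNReal.ofReal_add (by positivity) (by positivity), ← ENNReal.ofReal_mul (by positivity)]
        congr 1
        ring

end Vale.Agent.P249
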