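import Mathlib
import Vale.Agent.P249.Tau

/-!
The core of the lower bound: embeddings of a fine grid of `ℓ_2^k` into `ℓ_q^d`.
-/

open MeasureTheory ProbabilityTheory Finset
open scoped ENNReal NNReal

namespace Vale.Agent.P249

/-- clamping to `[-1, 1]` -/
noncomputable def cl (t : ℝ) : ℝ := max (-1) (min t 1)

lemma cl_mem (t : ℝ) : -1 ≤ cl t ∧ cl t ≤ 1 :=
  ⟨le_max_left _ _, max_le (by norm_num) (min_le_right _ _)⟩

lemma cl_lip (s t : ℝ) : |cl s - cl t| ≤ |s - t| := by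
  unfold cl
  have h1 : |max (-1) (min s 1) - max (-1) (min t 1)| ≤ |min s 1 - min t 1| := by
    have := abs_max_sub_max_le_abs (min s 1) (min t 1) (-1)
    rwa [max_comm (min s 1), max_comm (min t 1)] at this
  have h2 : |min s 1 - min t 1| ≤ |s - t| := by
    have := abs_min_sub_min_le_max s 1 t 1
    simpa using this
  exact h1.trans h2

lemma cl_cont : Continuous cl := by
  unfold cl; fun_prop

lemma cl_of_ge {t : ℝ} (h : 1 ≤ t) : cl t = 1 := by
  unfold cl; rw [min_eq_right h]; norm_num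

lemma cl_of_le {t : ℝ} (h : t ≤ -1) : cl t = -1 := by
  unfold cl; rw [min_eq_left (by linarith), max_eq_left h]

/-- rounding to an integer multiple of `1/k` (the integer) -/
noncomputable def rd (k : ℕ) (t : ℝ) : ℤ := ⌊(k : ℝ) * cl t⌋

lemma rd_abs (k : ℕ) (t : ℝ) : |rd k t| ≤ (k : ℤ) := by
  unfold rd
  obtain ⟨h1, h2⟩ := cl_mem t
  rw [abs_le]
  constructor
  · rw [Int.le_floor]
    push_cast
    nlinarith [Nat.cast_nonneg (α := ℝ) k]
  · have : (⌊(k : ℝ) * cl t⌋ : ℝ) ≤ k := (Int.floor_le _).trans (by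
      nlinarith [Nat.cast_nonneg (α := ℝ) k])
    exact_mod_cast this

lemma rd_of_ge {k : ℕ} {t : ℝ} (h : 1 ≤ t) : rd k t = k := by
  unfold rd; rw [cl_of_ge h]; simp

lemma rd_of_le {k : ℕ} {t : ℝ} (h : t ≤ -1) : rd k t = -k := by
  unfold rd; rw [cl_of_le h]
  have : (k : ℝ) * -1 = ((-(k : ℤ) : ℤ) : ℝ) := by push_cast; ring
  rw [this, Int.floor_intCast]

lemma rd_close {k : ℕ} (hk : 1 ≤ k) (t : ℝ) : |(rd k t : ℝ) / k - cl t| ≤ 1 / k := by
  have hkpos : (0 : ℝ) < k := by exact_mod_cast hk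
  unfold rd
  have h1 := Int.floor_le ((k : ℝ) * cl t)
  have h2 := Int.lt_floor_add_one ((k : ℝ) * cl t)
  have h3 : (⌊(k : ℝ) * cl t⌋ : ℝ) / k - cl t = (⌊(k : ℝ) * cl t⌋ - k * cl t) / k := by
    field_simp
  rw [h3, abs_div, abs_of_pos hkpos]
  apply div_le_div_of_nonneg_right _ hkpos.le
  rw [abs_le]
  constructor <;> linarith

lemma rd_meas (k : ℕ) : Measurable (rd k) := by
  unfold rd
  exact Int.measurable_floor.comp ((cl_cont.measurable).const_mul _)

/-- the Euclidean distance of the grid points `g / k` and `g' / k` -/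
noncomputable def gd {k : ℕ} (g g' : Fin k → ℤ) : ℝ :=
  Real.sqrt (∑ i, ((g i : ℝ) / k - (g' i : ℝ) / k) ^ 2)

/-- `P(g ≥ 1) P(g ≤ -1)` for a standard Gaussian -/
noncomputable def kap : ℝ :=
  ((gaussianReal 0 1) (Set.Ici 1) * (gaussianReal 0 1) (Set.Iic (-1))).toReal

lemma kap_ne : (gaussianReal 0 1) (Set.Ici 1) * (gaussianReal 0 1) (Set.Iic (-1)) ≠ 0 := by
  have hac : (volume : Measure ℝ) ≪ gaussianReal 0 1 :=
    gaussianReal_absolutelyContinuous' 0 one_ne_zero
  have h1 : (gaussianReal 0 1) (Set.Ici 1) ≠ 0 := by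
    intro h
    have := hac h
    simp at this
  have h2 : (gaussianReal 0 1) (Set.Iic (-1)) ≠ 0 := by
    intro h
    have := hac h
    simp at this
  exact mul_ne_zero h1 h2

lemma kap_pos : 0 < kap := by
  unfold kap
  apply ENNReal.toReal_pos kap_ne
  exact ENNReal.mul_ne_top (measure_ne_top _ _) (measure_ne_top _ _)

/-- second moment of the grid distance -/
lemma second_moment {k : ℕ} (hk : 1 ≤ k) :
    ENNReal.ofReal (4 * kap * k) ≤
      ∫⁻ x, ∫⁻ y, ENNReal.ofReal (gd (fun i => rd k (x i)) (fun i => rd k (y i)) ^ 2)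
        ∂(gam k) ∂(gam k) := by
  have hkpos : (0 : ℝ) < k := by exact_mod_cast hk
  have hpt : ∀ x y : Fin k → ℝ,
      (∑ i, 4 * (((Set.Ici (1 : ℝ)).indicator 1 (x i) : ℝ≥0∞) *
        ((Set.Iic (-1 : ℝ)).indicator 1 (y i) : ℝ≥0∞))) ≤
      ENNReal.ofReal (gd (fun i => rd k (x i)) (fun i => rd k (y i)) ^ 2) := by
    intro x y
    unfold gd
    rw [Real.sq_sqrt (Finset.sum_nonneg fun i _ => sq_nonneg _),
      ENNReal.ofReal_sum_of_nonneg fun i _ => sq_nonneg _]
    apply Finset.sum_le_sum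
    intro i _
    by_cases hx : 1 ≤ x i
    · by_cases hy : y i ≤ -1
      · beta_reduce
        rw [rd_of_ge hx, rd_of_le hy]
        rw [Set.indicator_of_mem (Set.mem_Ici.mpr hx), Set.indicator_of_mem (Set.mem_Iic.mpr hy)]
        have : (((k : ℤ) : ℝ) / k - ((-(k : ℤ) : ℤ) : ℝ) / k) ^ 2 = 4 := by
          push_cast
          field_simp
          norm_num
        rw [this]
        simp
      · rw [Set.indicator_of_notMem (s := Set.Iic (-1 : ℝ)) (by simpa using hy)]
        simp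
    · rw [Set.indicator_of_notMem (s := Set.Ici (1 : ℝ)) (by simpa using hx)]
      simp
  have hm1 : ∀ i : Fin k, Measurable fun x : Fin k → ℝ =>
      ((Set.Ici (1 : ℝ)).indicator 1 (x i) : ℝ≥0∞) := fun i =>
    (measurable_one.indicator measurableSet_Ici).comp (measurable_pi_apply i)
  have hm2 : ∀ i : Fin k, Measurable fun x : Fin k → ℝ =>
      ((Set.Iic (-1 : ℝ)).indicator 1 (x i) : ℝ≥0∞) := fun i =>
    (measurable_one.indicator measurableSet_Iic).comp (measurable_pi_apply i)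
  have he1 : ∀ i : Fin k, ∫⁻ x, ((Set.Ici (1 : ℝ)).indicator 1 (x i) : ℝ≥0∞) ∂(gam k) =
      (gaussianReal 0 1) (Set.Ici 1) := by
    intro i
    have hmp := measurePreserving_eval (fun _ : Fin k => gaussianReal 0 1) i
    have := hmp.lintegral_comp (f := (Set.Ici (1 : ℝ)).indicator (1 : ℝ → ℝ≥0∞))
      (measurable_one.indicator measurableSet_Ici)
    rw [lintegral_indicator_one measurableSet_Ici] at this
    exact this
  have he2 : ∀ i : Fin k, ∫⁻ x, ((Set.Iic (-1 : ℝ)).indicator 1 (x i) : ℝ≥0∞) ∂(gam k) =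
      (gaussianReal 0 1) (Set.Iic (-1)) := by
    intro i
    have hmp := measurePreserving_eval (fun _ : Fin k => gaussianReal 0 1) i
    have := hmp.lintegral_comp (f := (Set.Iic (-1 : ℝ)).indicator (1 : ℝ → ℝ≥0∞))
      (measurable_one.indicator measurableSet_Iic)
    rw [lintegral_indicator_one measurableSet_Iic] at this
    exact this
  calc ENNReal.ofReal (4 * kap * k)
      = ∑ _i : Fin k, 4 * ((gaussianReal 0 1) (Set.Ici 1) * (gaussianReal 0 1) (Set.Iic (-1))) := by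
        rw [Finset.sum_const, Finset.card_univ, Fintype.card_fin, nsmul_eq_mul]
        unfold kap
        rw [ENNReal.ofReal_mul (by positivity), ENNReal.ofReal_mul (by norm_num),
          ENNReal.ofReal_toReal (ENNReal.mul_ne_top (measure_ne_top _ _) (measure_ne_top _ _)),
          ENNReal.ofReal_natCast]
        rw [mul_comm]
        congr 1
        congr 1
        simp
    _ = ∫⁻ x, ∫⁻ y, (∑ i, 4 * (((Set.Ici (1 : ℝ)).indicator 1 (x i) : ℝ≥0∞) *
        ((Set.Iic (-1 : ℝ)).indicator 1 (y i) : ℝ≥0∞))) ∂(gam k) ∂(gam k) := by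
        have h1 : ∀ x : Fin k → ℝ, ∫⁻ y, (∑ i, 4 * (((Set.Ici (1 : ℝ)).indicator 1 (x i) : ℝ≥0∞) *
            ((Set.Iic (-1 : ℝ)).indicator 1 (y i) : ℝ≥0∞))) ∂(gam k) =
            ∑ i, 4 * (((Set.Ici (1 : ℝ)).indicator 1 (x i) : ℝ≥0∞) *
              (gaussianReal 0 1) (Set.Iic (-1))) := by
          intro x
          rw [lintegral_finsetSum]
          · apply Finset.sum_congr rfl
            intro i _
            rw [lintegral_const_mul _ ((hm2 i).const_mul _), lintegral_const_mul _ (hm2 i), he2 i]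
          · intro i _
            exact ((hm2 i).const_mul _).const_mul _
        simp_rw [h1]
        rw [lintegral_finsetSum]
        · apply Finset.sum_congr rfl
          intro i _
          rw [lintegral_const_mul _ ((hm1 i).mul_const _), lintegral_mul_const _ (hm1 i), he1 i]
        · intro i _
          exact ((hm1 i).mul_const _).const_mul _
    _ ≤ _ := lintegral_mono fun x => lintegral_mono fun y => hpt x y

lemma pow_trunc {R a q : ℝ} (hR : 0 ≤ R) (ha : 0 < a) (hq : 2 ≤ q) :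
    a ^ (q - 2) * R ^ 2 ≤ R ^ q + a ^ q := by
  have haq : a ^ q = a ^ (q - 2) * a ^ 2 := by
    rw [← Real.rpow_natCast a 2, ← Real.rpow_add ha]
    norm_num
  rcases le_total a R with h | h
  · have hRpos : 0 < R := lt_of_lt_of_le ha h
    have hRq : R ^ q = R ^ (q - 2) * R ^ 2 := by
      rw [← Real.rpow_natCast R 2, ← Real.rpow_add hRpos]
      norm_num
    have h1 : a ^ (q - 2) ≤ R ^ (q - 2) := Real.rpow_le_rpow ha.le h (by linarith)
    have h2 : a ^ (q - 2) * R ^ 2 ≤ R ^ q := by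
      rw [hRq]; exact mul_le_mul_of_nonneg_right h1 (sq_nonneg R)
    have h3 : 0 ≤ a ^ q := Real.rpow_nonneg ha.le q
    linarith
  · have h1 : R ^ 2 ≤ a ^ 2 := pow_le_pow_left₀ hR h 2
    have h2 : a ^ (q - 2) * R ^ 2 ≤ a ^ q := by
      rw [haq]; exact mul_le_mul_of_nonneg_left h1 (Real.rpow_nonneg ha.le _)
    have h3 : 0 ≤ R ^ q := Real.rpow_nonneg hR q
    linarith

lemma add_rpow_le' {a b q : ℝ} (ha : 0 ≤ a) (hb : 0 ≤ b) (hq : 1 ≤ q) :
    (a + b) ^ q ≤ 2 ^ (q - 1) * (a ^ q + b ^ q) := by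
  have := NNReal.rpow_add_le_mul_rpow_add_rpow ⟨a, ha⟩ ⟨b, hb⟩ hq
  exact_mod_cast this

/-- McShane extension of a coordinate of a map of the grid. -/
lemma exists_ext {k : ℕ} (hk : 1 ≤ k) {D : ℝ} (hD : 0 < D) (ψ : (Fin k → ℤ) → ℝ)
    (hψ : ∀ g g' : Fin k → ℤ, (∀ i, |g i| ≤ (k : ℤ)) → (∀ i, |g' i| ≤ (k : ℤ)) →
      |ψ g - ψ g'| ≤ D * gd g g') :
    ∃ G : (Fin k → ℝ) → ℝ, Measurable G ∧
      (∀ x y, |G x - G y| ≤ D * Real.sqrt (∑ i, (x i - y i) ^ 2)) ∧
      (∀ x, |ψ (fun i => rd k (x i)) - G x| ≤ D) := by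
  have hkpos : (0 : ℝ) < k := by exact_mod_cast hk
  let P : (Fin k → ℤ) → EuclideanSpace ℝ (Fin k) := fun g =>
    WithLp.toLp 2 (fun i => (g i : ℝ) / k)
  let gf : EuclideanSpace ℝ (Fin k) → (Fin k → ℤ) := fun z i => ⌊(k : ℝ) * z i⌋
  have hgf : ∀ g, gf (P g) = g := by
    intro g
    funext i
    simp only [gf, P]
    have : (k : ℝ) * ((g i : ℝ) / k) = g i := by field_simp
    rw [this, Int.floor_intCast]
  have hdist : ∀ g g', dist (P g) (P g') = gd g g' := by
    intro g g'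
    rw [EuclideanSpace.dist_eq]
    unfold gd
    congr 1
    apply Finset.sum_congr rfl
    intro i _
    rw [Real.dist_eq, sq_abs]
  let S : Set (EuclideanSpace ℝ (Fin k)) := {z | ∃ g : Fin k → ℤ, (∀ i, |g i| ≤ (k : ℤ)) ∧ z = P g}
  have hL : LipschitzOnWith D.toNNReal (fun z => ψ (gf z)) S := by
    apply LipschitzOnWith.of_dist_le_mul
    rintro _ ⟨g, hg, rfl⟩ _ ⟨g', hg', rfl⟩
    rw [hgf, hgf, hdist, Real.coe_toNNReal D hD.le, Real.dist_eq]
    exact hψ g g' hg hg'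
  obtain ⟨F, hF, hFe⟩ := hL.extend_real
  let c : (Fin k → ℝ) → EuclideanSpace ℝ (Fin k) := fun x => WithLp.toLp 2 (fun i => cl (x i))
  have hcc : Continuous c := by
    have h1 : Continuous fun x : Fin k → ℝ => (fun i => cl (x i) : Fin k → ℝ) :=
      continuous_pi fun i => cl_cont.comp (continuous_apply i)
    exact (PiLp.continuous_toLp 2 _).comp h1
  refine ⟨fun x => F (c x), (hF.continuous.comp hcc).measurable, ?_, ?_⟩
  · intro x y
    have h1 := hF.dist_le_mul (c x) (c y)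
    rw [Real.dist_eq, Real.coe_toNNReal D hD.le] at h1
    refine h1.trans (mul_le_mul_of_nonneg_left ?_ hD.le)
    rw [EuclideanSpace.dist_eq]
    apply Real.sqrt_le_sqrt
    apply Finset.sum_le_sum
    intro i _
    simp only [c]
    rw [Real.dist_eq]
    exact pow_le_pow_left₀ (abs_nonneg _) (cl_lip _ _) 2 |>.trans (by rw [sq_abs])
  · intro x
    have hg : ∀ i, |rd k (x i)| ≤ (k : ℤ) := fun i => rd_abs k (x i)
    have h1 : ψ (fun i => rd k (x i)) = F (P fun i => rd k (x i)) := by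
      have := hFe (x := P fun i => rd k (x i)) ⟨_, hg, rfl⟩
      rw [← this]
      simp only [hgf]
    rw [h1]
    have h2 := hF.dist_le_mul (P fun i => rd k (x i)) (c x)
    rw [Real.dist_eq, Real.coe_toNNReal D hD.le] at h2
    refine h2.trans ?_
    have h3 : dist (P fun i => rd k (x i)) (c x) ≤ 1 := by
      rw [EuclideanSpace.dist_eq]
      rw [Real.sqrt_le_one]
      calc ∑ i, dist ((P fun i => rd k (x i)) i) (c x i) ^ 2 ≤ ∑ _i : Fin k, (1 / (k : ℝ)) ^ 2 := by
            apply Finset.sum_le_sum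
            intro i _
            simp only [P, c]
            rw [Real.dist_eq]
            exact pow_le_pow_left₀ (abs_nonneg _) (rd_close hk (x i)) 2
        _ = 1 / k := by
            rw [Finset.sum_const, Finset.card_univ, Fintype.card_fin, nsmul_eq_mul]
            field_simp
        _ ≤ 1 := by
            rw [div_le_one hkpos]
            exact_mod_cast hk
    nlinarith

/-- the rounding map -/
noncomputable def rv (k : ℕ) (x : Fin k → ℝ) : Fin k → ℤ := fun i => rd k (x i)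

lemma rv_meas (k : ℕ) : Measurable (rv k) :=
  measurable_pi_lambda _ fun i => (rd_meas k).comp (measurable_pi_apply i)

lemma gd_nonneg {k : ℕ} (g g' : Fin k → ℤ) : 0 ≤ gd g g' := Real.sqrt_nonneg _

lemma gd_meas (k : ℕ) : Measurable fun z : (Fin k → ℝ) × (Fin k → ℝ) =>
    gd (rv k z.1) (rv k z.2) := by
  unfold gd
  apply Measurable.sqrt
  apply Finset.measurable_sum
  intro i _
  have h1 : Measurable fun z : (Fin k → ℝ) × (Fin k → ℝ) => ((rv k z.1 i : ℤ) : ℝ) :=
    (measurable_of_countable (fun n : ℤ => (n : ℝ))).comp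
      ((rd_meas k).comp ((measurable_pi_apply i).comp measurable_fst))
  have h2 : Measurable fun z : (Fin k → ℝ) × (Fin k → ℝ) => ((rv k z.2 i : ℤ) : ℝ) :=
    (measurable_of_countable (fun n : ℤ => (n : ℝ))).comp
      ((rd_meas k).comp ((measurable_pi_apply i).comp measurable_snd))
  exact ((h1.div_const _).sub (h2.div_const _)).pow_const 2

lemma coord_moment {k : ℕ} (hk : 1 ≤ k) {q D : ℝ} (hq : 2 ≤ q) (hD : 0 < D)
    (ψ : (Fin k → ℤ) → ℝ)
    (hψ : ∀ g g' : Fin k → ℤ, (∀ i, |g i| ≤ (k : ℤ)) → (∀ i, |g' i| ≤ (k : ℤ)) →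
      |ψ g - ψ g'| ≤ D * gd g g') :
    ∫⁻ x, ∫⁻ y, ENNReal.ofReal (|ψ (rv k x) - ψ (rv k y)| ^ q) ∂(gam k) ∂(gam k) ≤
      ENNReal.ofReal (2 ^ (q - 1) * (2 * Real.exp 1 * (q ^ q * D ^ q) + (2 * D) ^ q)) := by
  have hq0 : 0 < q := by linarith
  obtain ⟨G, hGm, hGl, hGc⟩ := exists_ext hk hD ψ hψ
  have hpt : ∀ x y, ENNReal.ofReal (|ψ (rv k x) - ψ (rv k y)| ^ q) ≤
      ENNReal.ofReal (2 ^ (q - 1)) * (ENNReal.ofReal (|G x - G y| ^ q) +
        ENNReal.ofReal ((2 * D) ^ q)) := by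
    intro x y
    rw [← ENNReal.ofReal_add (by positivity) (by positivity),
      ← ENNReal.ofReal_mul (by positivity)]
    apply ENNReal.ofReal_le_ofReal
    have h1 : |ψ (rv k x) - ψ (rv k y)| ≤ |G x - G y| + 2 * D := by
      have e1 : |ψ (rv k x) - G x| ≤ D := hGc x
      have e2 : |ψ (rv k y) - G y| ≤ D := hGc y
      have e3 : ψ (rv k x) - ψ (rv k y) = (ψ (rv k x) - G x) + (G x - G y) +
          (G y - ψ (rv k y)) := by ring
      rw [e3]
      calc |(ψ (rv k x) - G x) + (G x - G y) + (G y - ψ (rv k y))|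
          ≤ |ψ (rv k x) - G x| + |G x - G y| + |G y - ψ (rv k y)| := abs_add_three _ _ _
        _ ≤ D + |G x - G y| + D := by
            rw [abs_sub_comm (G y)]
            gcongr
        _ = _ := by ring
    calc |ψ (rv k x) - ψ (rv k y)| ^ q ≤ (|G x - G y| + 2 * D) ^ q :=
          Real.rpow_le_rpow (abs_nonneg _) h1 hq0.le
      _ ≤ 2 ^ (q - 1) * (|G x - G y| ^ q + (2 * D) ^ q) :=
          add_rpow_le' (abs_nonneg _) (by positivity) (by linarith)
  have hmG : ∀ x, Measurable fun y => ENNReal.ofReal (|G x - G y| ^ q) := by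
    intro x
    fun_prop
  have hmG2 : Measurable fun x => ∫⁻ y, ENNReal.ofReal (|G x - G y| ^ q) ∂(gam k) := by
    apply Measurable.lintegral_prod_right (f := fun x y => ENNReal.ofReal (|G x - G y| ^ q))
    have h1 : Measurable fun z : (Fin k → ℝ) × (Fin k → ℝ) => G z.1 := hGm.comp measurable_fst
    have h2 : Measurable fun z : (Fin k → ℝ) × (Fin k → ℝ) => G z.2 := hGm.comp measurable_snd
    exact (((h1.sub h2).abs).pow_const q).ennreal_ofReal
  calc ∫⁻ x, ∫⁻ y, ENNReal.ofReal (|ψ (rv k x) - ψ (rv k y)| ^ q) ∂(gam k) ∂(gam k)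
      ≤ ∫⁻ x, ∫⁻ y, ENNReal.ofReal (2 ^ (q - 1)) * (ENNReal.ofReal (|G x - G y| ^ q) +
        ENNReal.ofReal ((2 * D) ^ q)) ∂(gam k) ∂(gam k) :=
        lintegral_mono fun x => lintegral_mono fun y => hpt x y
    _ = ENNReal.ofReal (2 ^ (q - 1)) *
        (∫⁻ x, ∫⁻ y, ENNReal.ofReal (|G x - G y| ^ q) ∂(gam k) ∂(gam k) +
          ENNReal.ofReal ((2 * D) ^ q)) := by
        have h1 : ∀ x, ∫⁻ y, ENNReal.ofReal (2 ^ (q - 1)) *
            (ENNReal.ofReal (|G x - G y| ^ q) + ENNReal.ofReal ((2 * D) ^ q)) ∂(gam k) =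
            ENNReal.ofReal (2 ^ (q - 1)) * (∫⁻ y, ENNReal.ofReal (|G x - G y| ^ q) ∂(gam k) +
              ENNReal.ofReal ((2 * D) ^ q)) := by
          intro x
          rw [lintegral_const_mul _ ((hmG x).add_const _), lintegral_add_left (hmG x)]
          simp
        simp_rw [h1]
        rw [lintegral_const_mul _ (hmG2.add_const _), lintegral_add_left hmG2]
        simp
    _ ≤ ENNReal.ofReal (2 ^ (q - 1)) * (ENNReal.ofReal (2 * Real.exp 1 * (q ^ q * D ^ q)) +
          ENNReal.ofReal ((2 * D) ^ q)) := by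
        gcongr
        exact moment_bound hGm hD hGl hq0
    _ = _ := by
        rw [← ENNReal.ofReal_add (by positivity) (by positivity),
          ← ENNReal.ofReal_mul (by positivity)]

lemma iter_const_mul {X : Type*} [MeasurableSpace X] {μ : Measure X} [SFinite μ]
    {f : X → X → ℝ≥0∞} (hf : Measurable (fun z : X × X => f z.1 z.2)) (c : ℝ≥0∞) :
    ∫⁻ x, ∫⁻ y, c * f x y ∂μ ∂μ = c * ∫⁻ x, ∫⁻ y, f x y ∂μ ∂μ := by
  have h1 : ∀ x, ∫⁻ y, c * f x y ∂μ = c * ∫⁻ y, f x y ∂μ := by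
    intro x
    have hmx : Measurable fun y => f x y := hf.comp measurable_prodMk_left
    rw [lintegral_const_mul _ hmx]
  simp_rw [h1]
  have h2 : Measurable fun x => ∫⁻ y, f x y ∂μ := hf.lintegral_prod_right'
  rw [lintegral_const_mul _ h2]

lemma iter_add_const {X : Type*} [MeasurableSpace X] {μ : Measure X} [IsProbabilityMeasure μ]
    {f : X → X → ℝ≥0∞} (hf : Measurable (fun z : X × X => f z.1 z.2)) (c : ℝ≥0∞) :
    ∫⁻ x, ∫⁻ y, (f x y + c) ∂μ ∂μ = ∫⁻ x, ∫⁻ y, f x y ∂μ ∂μ + c := by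
  have h1 : ∀ x, ∫⁻ y, (f x y + c) ∂μ = ∫⁻ y, f x y ∂μ + c := by
    intro x
    have hmx : Measurable fun y => f x y := hf.comp measurable_prodMk_left
    rw [lintegral_add_left hmx]
    simp
  simp_rw [h1]
  have h2 : Measurable fun x => ∫⁻ y, f x y ∂μ := hf.lintegral_prod_right'
  rw [lintegral_add_left h2]
  simp

lemma gd_moment_lower {k : ℕ} (hk : 1 ≤ k) {q : ℝ} (hq : 2 ≤ q) {a : ℝ} (hapos : 0 < a)
    (ha2 : a ^ 2 = 2 * kap * k) :
    ENNReal.ofReal (2 * a ^ q) ≤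
      ∫⁻ x, ∫⁻ y, ENNReal.ofReal (gd (rv k x) (rv k y) ^ q) ∂(gam k) ∂(gam k) +
        ENNReal.ofReal (a ^ q) := by
  have haq2 : a ^ q = a ^ (q - 2) * a ^ 2 := by
    rw [← Real.rpow_natCast a 2, ← Real.rpow_add hapos]
    norm_num
  have hmgd := gd_meas k
  have hm2 : Measurable fun z : (Fin k → ℝ) × (Fin k → ℝ) =>
      ENNReal.ofReal (gd (rv k z.1) (rv k z.2) ^ 2) := (hmgd.pow_const 2).ennreal_ofReal
  have hmq : Measurable fun z : (Fin k → ℝ) × (Fin k → ℝ) =>
      ENNReal.ofReal (gd (rv k z.1) (rv k z.2) ^ q) := (hmgd.pow_const q).ennreal_ofReal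
  have e1 := iter_const_mul (μ := gam k)
    (f := fun x y => ENNReal.ofReal (gd (rv k x) (rv k y) ^ 2)) hm2 (ENNReal.ofReal (a ^ (q - 2)))
  have e2 := iter_add_const (μ := gam k)
    (f := fun x y => ENNReal.ofReal (gd (rv k x) (rv k y) ^ q)) hmq (ENNReal.ofReal (a ^ q))
  have e3 := second_moment hk
  have e4 : ∫⁻ x, ∫⁻ y, ENNReal.ofReal (a ^ (q - 2)) * ENNReal.ofReal (gd (rv k x) (rv k y) ^ 2)
        ∂(gam k) ∂(gam k) ≤
      ∫⁻ x, ∫⁻ y, (ENNReal.ofReal (gd (rv k x) (rv k y) ^ q) + ENNReal.ofReal (a ^ q))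
        ∂(gam k) ∂(gam k) := by
    refine lintegral_mono fun x => lintegral_mono fun y => ?_
    rw [← ENNReal.ofReal_mul (Real.rpow_nonneg hapos.le _),
      ← ENNReal.ofReal_add (Real.rpow_nonneg (gd_nonneg _ _) _) (Real.rpow_nonneg hapos.le _)]
    exact ENNReal.ofReal_le_ofReal (pow_trunc (gd_nonneg _ _) hapos hq)
  rw [e1, e2] at e4
  refine le_trans ?_ e4
  have e5 : ENNReal.ofReal (2 * a ^ q) = ENNReal.ofReal (a ^ (q - 2)) *
        ENNReal.ofReal (4 * kap * k) := by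
    rw [← ENNReal.ofReal_mul (Real.rpow_nonneg hapos.le _), haq2, ha2]
    congr 1
    ring
  rw [e5]
  exact mul_le_mul' le_rfl e3

/-- The core of the lower bound. -/
theorem lower_core {k d : ℕ} (hk : 1 ≤ k) {q D : ℝ} (hq : 2 ≤ q) (hD : 0 < D)
    (φ : (Fin k → ℤ) → Fin d → ℝ)
    (h : ∀ g g' : Fin k → ℤ, (∀ i, |g i| ≤ (k : ℤ)) → (∀ i, |g' i| ≤ (k : ℤ)) →
      gd g g' ^ q ≤ ∑ j, |φ g j - φ g' j| ^ q ∧ ∑ j, |φ g j - φ g' j| ^ q ≤ (D * gd g g') ^ q) :
    (2 * kap * k) ^ (q / 2) ≤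
      d * (2 ^ (q - 1) * (2 * Real.exp 1 * (q ^ q * D ^ q) + (2 * D) ^ q)) := by
  have hq0 : 0 < q := by linarith
  have hkpos : (0 : ℝ) < k := by exact_mod_cast hk
  have hco : ∀ j, ∀ g g' : Fin k → ℤ, (∀ i, |g i| ≤ (k : ℤ)) → (∀ i, |g' i| ≤ (k : ℤ)) →
      |φ g j - φ g' j| ≤ D * gd g g' := by
    intro j g g' hg hg'
    have h1 : |φ g j - φ g' j| ^ q ≤ (D * gd g g') ^ q :=
      (Finset.single_le_sum (f := fun j => |φ g j - φ g' j| ^ q)
        (fun _ _ => Real.rpow_nonneg (abs_nonneg _) _) (Finset.mem_univ j)).trans (h g g' hg hg').2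
    exact (Real.rpow_le_rpow_iff (abs_nonneg _) (mul_nonneg hD.le (gd_nonneg _ _)) hq0).mp h1
  set CC : ℝ := 2 ^ (q - 1) * (2 * Real.exp 1 * (q ^ q * D ^ q) + (2 * D) ^ q) with hCC
  have hCC0 : 0 ≤ CC := by positivity
  have hr : ∀ x i, |rv k x i| ≤ (k : ℤ) := fun x i => rd_abs k (x i)
  have hφm : ∀ j, Measurable fun x => φ (rv k x) j := by
    intro j
    exact (measurable_of_countable (fun g : Fin k → ℤ => φ g j)).comp (rv_meas k)
  have hup : ∀ j, ∫⁻ x, ∫⁻ y, ENNReal.ofReal (|φ (rv k x) j - φ (rv k y) j| ^ q)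
      ∂(gam k) ∂(gam k) ≤ ENNReal.ofReal CC := fun j =>
    coord_moment hk hq hD (fun g => φ g j) (hco j)
  -- summing over the coordinates
  have hsum : ∫⁻ x, ∫⁻ y, ENNReal.ofReal (gd (rv k x) (rv k y) ^ q) ∂(gam k) ∂(gam k) ≤
      ENNReal.ofReal (d * CC) := by
    have hmφ : ∀ j x, Measurable fun y => ENNReal.ofReal (|φ (rv k x) j - φ (rv k y) j| ^ q) := by
      intro j x
      exact (((hφm j).const_sub _).abs.pow_const q).ennreal_ofReal
    have hmφ2 : ∀ j, Measurable fun x =>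
        ∫⁻ y, ENNReal.ofReal (|φ (rv k x) j - φ (rv k y) j| ^ q) ∂(gam k) := by
      intro j
      apply Measurable.lintegral_prod_right
        (f := fun x y => ENNReal.ofReal (|φ (rv k x) j - φ (rv k y) j| ^ q))
      have h1 : Measurable fun z : (Fin k → ℝ) × (Fin k → ℝ) => φ (rv k z.1) j :=
        (hφm j).comp measurable_fst
      have h2 : Measurable fun z : (Fin k → ℝ) × (Fin k → ℝ) => φ (rv k z.2) j :=
        (hφm j).comp measurable_snd
      exact (((h1.sub h2).abs).pow_const q).ennreal_ofReal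
    calc ∫⁻ x, ∫⁻ y, ENNReal.ofReal (gd (rv k x) (rv k y) ^ q) ∂(gam k) ∂(gam k)
        ≤ ∫⁻ x, ∫⁻ y, ∑ j, ENNReal.ofReal (|φ (rv k x) j - φ (rv k y) j| ^ q)
            ∂(gam k) ∂(gam k) := by
          refine lintegral_mono fun x => lintegral_mono fun y => ?_
          rw [← ENNReal.ofReal_sum_of_nonneg fun j _ => Real.rpow_nonneg (abs_nonneg _) _]
          exact ENNReal.ofReal_le_ofReal (h (rv k x) (rv k y) (hr x) (hr y)).1
      _ = ∑ j, ∫⁻ x, ∫⁻ y, ENNReal.ofReal (|φ (rv k x) j - φ (rv k y) j| ^ q)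
            ∂(gam k) ∂(gam k) := by
          have h1 : ∀ x, ∫⁻ y, ∑ j, ENNReal.ofReal (|φ (rv k x) j - φ (rv k y) j| ^ q) ∂(gam k) =
              ∑ j, ∫⁻ y, ENNReal.ofReal (|φ (rv k x) j - φ (rv k y) j| ^ q) ∂(gam k) := by
            intro x
            rw [lintegral_finsetSum]
            intro j _
            exact hmφ j x
          simp_rw [h1]
          rw [lintegral_finsetSum]
          intro j _
          exact hmφ2 j
      _ ≤ ∑ _j : Fin d, ENNReal.ofReal CC := Finset.sum_le_sum fun j _ => hup j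
      _ = ENNReal.ofReal (d * CC) := by
          rw [Finset.sum_const, Finset.card_univ, Fintype.card_fin, nsmul_eq_mul,
            ← ENNReal.ofReal_natCast d, ← ENNReal.ofReal_mul (Nat.cast_nonneg d)]
  -- the lower bound
  have hkap := kap_pos
  set a : ℝ := Real.sqrt (2 * kap * k) with ha
  have hapos : 0 < a := Real.sqrt_pos.mpr (by positivity)
  have ha2 : a ^ 2 = 2 * kap * k := Real.sq_sqrt (by positivity)
  have haq : a ^ q = (2 * kap * k) ^ (q / 2) := by
    rw [ha, Real.sqrt_eq_rpow, ← Real.rpow_mul (by positivity)]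
    congr 1
    ring
  have hlow := gd_moment_lower hk hq hapos ha2
  have haq0 : 0 ≤ a ^ q := Real.rpow_nonneg hapos.le _
  have hfin : ENNReal.ofReal (2 * a ^ q) ≤ ENNReal.ofReal (d * CC + a ^ q) := by
    refine hlow.trans ?_
    rw [ENNReal.ofReal_add (by positivity) haq0]
    exact add_le_add hsum le_rfl
  have hfin2 : 2 * a ^ q ≤ d * CC + a ^ q :=
    (ENNReal.ofReal_le_ofReal_iff (by positivity)).mp hfin
  rw [← haq]
  linarith

end Vale.Agent.P249
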