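import Mathlib
import Vale.Agent.P249.Defs
import Vale.Agent.P249.LowerCore

/-!
The lower bound for `d_p(n, D)`, `p > 2`.
-/

open MeasureTheory ProbabilityTheory Finset Metric
open scoped ENNReal NNReal

namespace Vale.Agent.P249

universe u

section Embed

variable (k : ℕ)

/-- Lebesgue measure on the unit ball -/
noncomputable abbrev ballM : Measure (EuclideanSpace ℝ (Fin k)) :=
  volume.restrict (closedBall 0 1)

lemma ball_memLp (p : ℝ≥0∞) (z : EuclideanSpace ℝ (Fin k)) :
    MemLp (fun ω => inner ℝ z ω) p (ballM k) := by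
  have hfin : IsFiniteMeasure (ballM k) := ⟨by
    rw [Measure.restrict_apply_univ]
    exact measure_closedBall_lt_top⟩
  apply MemLp.of_bound (by fun_prop) ‖z‖
  rw [ae_restrict_iff' measurableSet_closedBall]
  refine Filter.Eventually.of_forall fun ω hω => ?_
  rw [mem_closedBall, dist_zero_right] at hω
  calc ‖inner ℝ z ω‖ ≤ ‖z‖ * ‖ω‖ := norm_inner_le_norm z ω
    _ ≤ ‖z‖ * 1 := mul_le_mul_of_nonneg_left hω (norm_nonneg _)
    _ = ‖z‖ := mul_one _

/-- the `L_p` norm of the linear functional `⟨z, ·⟩` on the ball -/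
noncomputable def NN (p : ℝ≥0∞) (z : EuclideanSpace ℝ (Fin k)) : ℝ≥0∞ :=
  eLpNorm (fun ω => inner ℝ z ω) p (ballM k)

lemma NN_unit (p : ℝ≥0∞) {u e : EuclideanSpace ℝ (Fin k)} (h : ‖u‖ = ‖e‖) :
    NN k p u = NN k p e := by
  set R := Submodule.reflection (ℝ ∙ (u - e))ᗮ with hR
  have hRu : R u = e := Submodule.reflection_sub h
  have hmp : MeasurePreserving R volume volume := R.measurePreserving
  have hmp2 : MeasurePreserving R (ballM k) (ballM k) := by
    have h1 := hmp.restrict_preimage (s := closedBall (0 : EuclideanSpace ℝ (Fin k)) 1)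
      measurableSet_closedBall
    have h2 : R ⁻¹' closedBall (0 : EuclideanSpace ℝ (Fin k)) 1 = closedBall 0 1 := by
      ext ω
      simp
    rw [h2] at h1
    exact h1
  unfold NN
  have h3 : (fun ω => inner ℝ u ω) = (fun ω => inner ℝ e ω) ∘ R := by
    funext ω
    simp only [Function.comp_apply]
    rw [← hRu, R.inner_map_map]
  rw [h3, eLpNorm_comp_measurePreserving (by fun_prop) hmp2]

lemma NN_smul (p : ℝ≥0∞) (c : ℝ) (z : EuclideanSpace ℝ (Fin k)) :
    NN k p (c • z) = ‖c‖ₑ * NN k p z := by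
  unfold NN
  rw [← eLpNorm_const_smul]
  congr 1
  funext ω
  simp [inner_smul_left]

lemma NN_eq (p : ℝ≥0∞) {e : EuclideanSpace ℝ (Fin k)} (he : ‖e‖ = 1)
    (z : EuclideanSpace ℝ (Fin k)) : (NN k p z).toReal = ‖z‖ * (NN k p e).toReal := by
  by_cases hz : z = 0
  · subst hz
    have : NN k p (0 : EuclideanSpace ℝ (Fin k)) = 0 := by
      unfold NN; simp
    rw [this]; simp
  · have hz' : ‖z‖ ≠ 0 := norm_ne_zero_iff.mpr hz
    have h1 : z = ‖z‖ • (‖z‖⁻¹ • z) := by
      rw [smul_smul, mul_inv_cancel₀ hz', one_smul]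
    have h2 : ‖‖z‖⁻¹ • z‖ = ‖e‖ := by
      rw [norm_smul, norm_inv, norm_norm, inv_mul_cancel₀ hz', he]
    have h3 : NN k p z = ‖(‖z‖ : ℝ)‖ₑ * NN k p e := by
      conv_lhs => rw [h1]
      rw [NN_smul, NN_unit k p h2]
    rw [h3, ENNReal.toReal_mul]
    simp

lemma NN_pos {p : ℝ≥0∞} (hp0 : p ≠ 0) {e : EuclideanSpace ℝ (Fin k)} (he : ‖e‖ = 1) :
    0 < (NN k p e).toReal := by
  apply ENNReal.toReal_pos
  · intro h0
    unfold NN at h0
    rw [eLpNorm_eq_zero_iff (by fun_prop) hp0] at h0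
    have h1 : (ballM k) {ω | inner ℝ e ω ≠ 0} = 0 := h0
    have hopen : IsOpen ({ω : EuclideanSpace ℝ (Fin k) | 0 < inner ℝ e ω} ∩ ball 0 1) := by
      apply IsOpen.inter _ isOpen_ball
      exact isOpen_lt continuous_const (by fun_prop)
    have hne : ({ω : EuclideanSpace ℝ (Fin k) | 0 < inner ℝ e ω} ∩ ball 0 1).Nonempty := by
      refine ⟨(1 / 2 : ℝ) • e, ?_, ?_⟩
      · simp only [Set.mem_ofPred_eq]
        rw [inner_smul_right, real_inner_self_eq_norm_sq, he]
        norm_num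
      · rw [mem_ball_zero_iff, norm_smul, he]
        norm_num
    have h2 := hopen.measure_pos volume hne
    have h3 : volume ({ω : EuclideanSpace ℝ (Fin k) | 0 < inner ℝ e ω} ∩ ball 0 1) ≤
        (ballM k) {ω | inner ℝ e ω ≠ 0} := by
      have hs : MeasurableSet {ω : EuclideanSpace ℝ (Fin k) | inner ℝ e ω ≠ 0} := by
        have : IsOpen {ω : EuclideanSpace ℝ (Fin k) | inner ℝ e ω ≠ 0} :=
          isOpen_ne_fun (by fun_prop) continuous_const
        exact this.measurableSet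
      rw [Measure.restrict_apply hs]
      apply measure_mono
      rintro ω ⟨h4, h5⟩
      refine ⟨?_, ball_subset_closedBall h5⟩
      simp only [Set.mem_ofPred_eq] at h4 ⊢
      exact h4.ne'
    rw [h1] at h3
    exact absurd (le_antisymm h3 zero_le) h2.ne'
  · exact (ball_memLp k p e).eLpNorm_ne_top

/-- `ℓ_2^k` embeds isometrically, up to scaling, into some `L_p`. -/
theorem exists_isometric (hk : 1 ≤ k) (p : ℝ≥0∞) [Fact (1 ≤ p)] :
    ∃ (α : Type u) (_ : MeasurableSpace α) (μ : Measure α)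
      (T : EuclideanSpace ℝ (Fin k) → Lp ℝ p μ) (c : ℝ), 0 < c ∧
      ∀ x y, ‖T x - T y‖ = c * ‖x - y‖ := by
  have hp0 : p ≠ 0 := by
    have : (1 : ℝ≥0∞) ≤ p := Fact.out
    intro h
    rw [h] at this
    simp at this
  let μ : Measure (ULift.{u} (EuclideanSpace ℝ (Fin k))) :=
    (ballM k).map (MeasurableEquiv.ulift.symm)
  have hmp : MeasurePreserving (MeasurableEquiv.ulift : ULift.{u} (EuclideanSpace ℝ (Fin k)) ≃ᵐ _)
      μ (ballM k) := by
    have h1 : MeasurePreserving (MeasurableEquiv.ulift.{0, u}.symm :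
        EuclideanSpace ℝ (Fin k) ≃ᵐ ULift.{u} (EuclideanSpace ℝ (Fin k))) (ballM k) μ :=
      MeasurableEquiv.ulift.symm.measurable.measurePreserving _
    exact h1.symm
  have hmem : ∀ z : EuclideanSpace ℝ (Fin k), MemLp ((fun ω => inner ℝ z ω) ∘
      (MeasurableEquiv.ulift : ULift.{u} (EuclideanSpace ℝ (Fin k)) ≃ᵐ _)) p μ := fun z =>
    (ball_memLp k p z).comp_measurePreserving hmp
  let e : EuclideanSpace ℝ (Fin k) := EuclideanSpace.single ⟨0, hk⟩ 1
  have he : ‖e‖ = 1 := by simp [e]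
  refine ⟨_, inferInstance, μ, fun z => (hmem z).toLp, (NN k p e).toReal, NN_pos k hp0 he, ?_⟩
  intro x y
  rw [← MemLp.toLp_sub, Lp.norm_toLp]
  have h1 : ((fun ω => inner ℝ x ω) ∘
      (MeasurableEquiv.ulift : ULift.{u} (EuclideanSpace ℝ (Fin k)) ≃ᵐ _) -
      (fun ω => inner ℝ y ω) ∘
      (MeasurableEquiv.ulift : ULift.{u} (EuclideanSpace ℝ (Fin k)) ≃ᵐ _)) =
      (fun ω => inner ℝ (x - y) ω) ∘
      (MeasurableEquiv.ulift : ULift.{u} (EuclideanSpace ℝ (Fin k)) ≃ᵐ _) := by
    funext ω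
    simp [inner_sub_left]
  rw [h1, eLpNorm_comp_measurePreserving (by fun_prop) hmp]
  have h2 := NN_eq k p he (x - y)
  unfold NN at h2 ⊢
  rw [h2, mul_comm]

end Embed

/-- the constant of the lower bound -/
noncomputable def CL (q D : ℝ) : ℝ :=
  2 ^ (q - 1) * (2 * Real.exp 1 * (q ^ q * D ^ q) + (2 * D) ^ q)

/-- Lower bound for every admissible dimension. -/
theorem admissible_lower (p : ℝ≥0∞) [Fact (1 ≤ p)] (hq : 2 ≤ p.toReal) {D : ℝ}
    (hD : 0 < D) {n k d : ℕ} (hk : 1 ≤ k) (hkn : (2 * k + 1) ^ k ≤ n)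
    (had : Admissible.{u} p n D d) :
    (2 * kap * k) ^ (p.toReal / 2) ≤ d * CL p.toReal D := by
  classical
  set q := p.toReal with hqd
  have hq0 : 0 < q := by linarith
  obtain ⟨α, mα, μ, T, c, hc, hT⟩ := exists_isometric.{u} k hk p
  have hTinj : Function.Injective T := by
    intro x y hxy
    have h1 := hT x y
    rw [hxy, sub_self, norm_zero] at h1
    have h2 : ‖x - y‖ = 0 := by
      rcases mul_eq_zero.mp h1.symm with h | h
      · exact absurd h hc.ne'
      · exact h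
    exact sub_eq_zero.mp (norm_eq_zero.mp h2)
  have hinf : Infinite (Lp ℝ p μ) := by
    apply Infinite.of_injective (fun t : ℝ => T (t • EuclideanSpace.single ⟨0, hk⟩ 1))
    intro s t hst
    have h1 := hTinj hst
    have h2 := congrArg (fun z : EuclideanSpace ℝ (Fin k) => z ⟨0, hk⟩) h1
    simpa using h2
  -- the grid
  let P : (Fin k → ℤ) → EuclideanSpace ℝ (Fin k) := fun g => WithLp.toLp 2 (fun i => (g i : ℝ) / k)
  let Γ : Finset (Fin k → ℤ) := Fintype.piFinset fun _ => Finset.Icc (-(k : ℤ)) k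
  have hΓ : ∀ g : Fin k → ℤ, (∀ i, |g i| ≤ (k : ℤ)) → g ∈ Γ := by
    intro g hg
    rw [Fintype.mem_piFinset]
    intro i
    rw [Finset.mem_Icc]
    exact abs_le.mp (hg i)
  have hΓc : Γ.card = (2 * k + 1) ^ k := by
    rw [Fintype.card_piFinset]
    simp only [Int.card_Icc, Finset.prod_const, Finset.card_univ, Fintype.card_fin]
    congr 1
    omega
  have hXc : (Γ.image fun g => T (P g)).card ≤ n :=
    Finset.card_image_le.trans (by rw [hΓc]; exact hkn)
  obtain ⟨X, hXsub, hXn⟩ := Infinite.exists_superset_card_eq _ n hXc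
  obtain ⟨f, s, hs, hf⟩ := had α mα μ X hXn
  have hmem : ∀ g : Fin k → ℤ, (∀ i, |g i| ≤ (k : ℤ)) → T (P g) ∈ X := fun g hg =>
    hXsub (Finset.mem_image_of_mem _ (hΓ g hg))
  let φ : (Fin k → ℤ) → Fin d → ℝ := fun g j =>
    if h : T (P g) ∈ X then (f ⟨T (P g), h⟩) j / (s * c) else 0
  have hsc : 0 < s * c := mul_pos hs hc
  refine lower_core hk hq hD φ ?_
  intro g g' hg hg'
  have hgd : ‖P g - P g'‖ = gd g g' := by
    rw [← dist_eq_norm, EuclideanSpace.dist_eq]
    unfold gd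
    congr 1
    apply Finset.sum_congr rfl
    intro i _
    rw [Real.dist_eq, sq_abs]
  have hφ : ∑ j, |φ g j - φ g' j| ^ q =
      (‖f ⟨T (P g), hmem g hg⟩ - f ⟨T (P g'), hmem g' hg'⟩‖ / (s * c)) ^ q := by
    rw [PiLp.norm_eq_sum hq0, Real.div_rpow (Real.rpow_nonneg (Finset.sum_nonneg fun i _ =>
      Real.rpow_nonneg (norm_nonneg _) _) _) hsc.le, ← Real.rpow_mul (Finset.sum_nonneg fun i _ =>
      Real.rpow_nonneg (norm_nonneg _) _), one_div_mul_cancel hq0.ne', Real.rpow_one,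
      Finset.sum_div]
    apply Finset.sum_congr rfl
    intro j _
    simp only [φ, dif_pos (hmem g hg), dif_pos (hmem g' hg')]
    rw [← sub_div, abs_div, abs_of_pos hsc, Real.div_rpow (abs_nonneg _) hsc.le]
    rfl
  obtain ⟨h1, h2⟩ := hf ⟨T (P g), hmem g hg⟩ ⟨T (P g'), hmem g' hg'⟩
  simp only [hT, hgd] at h1 h2
  rw [hφ]
  have hn0 : 0 ≤ ‖f ⟨T (P g), hmem g hg⟩ - f ⟨T (P g'), hmem g' hg'⟩‖ := norm_nonneg _
  constructor
  · apply Real.rpow_le_rpow (gd_nonneg _ _) _ hq0.le
    rw [le_div_iff₀ hsc]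
    linarith
  · apply Real.rpow_le_rpow (by positivity) _ hq0.le
    rw [div_le_iff₀ hsc]
    linarith

/-- choice of the dimension of the grid -/
lemma numeric_low {n : ℕ} (hn : 16 ≤ n) : ∃ k : ℕ, 1 ≤ k ∧ (2 * k + 1) ^ k ≤ n ∧
    Real.log n / (4 * Real.log (Real.log n)) ≤ k := by
  have hn16 : (16 : ℝ) ≤ n := by exact_mod_cast hn
  set L := Real.log n with hL
  have hlog2 : 0.6931471803 < Real.log 2 := Real.log_two_gt_d9
  have hL16 : 4 * Real.log 2 ≤ L := by
    have : (4 : ℝ) * Real.log 2 = Real.log 16 := by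
      rw [← Real.log_rpow (by norm_num) 4]; norm_num
    rw [this]
    exact Real.log_le_log (by norm_num) hn16
  have hL27 : 2.7725 ≤ L := by linarith
  have he : Real.exp 1 < 2.7182818286 := Real.exp_one_lt_d9
  set l := Real.log L with hl
  have hl1 : 1 < l := by
    rw [hl, Real.lt_log_iff_exp_lt (by linarith)]
    linarith
  have hlL : l ≤ L / 2 := by
    -- log x ≤ x / 2 from log (x/e) ≤ x/e - 1
    have h1 := Real.log_le_sub_one_of_pos (x := L / 2) (by linarith)
    rw [Real.log_div (by linarith) (by norm_num)] at h1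
    have hlog2' : Real.log 2 < 0.6931471808 := Real.log_two_lt_d9
    linarith
  have hx1 : 1 ≤ L / (2 * l) := by
    rw [le_div_iff₀ (by linarith)]
    linarith
  refine ⟨⌊L / (2 * l)⌋₊, ?_, ?_, ?_⟩
  · exact Nat.le_floor (by exact_mod_cast hx1)
  · set k := ⌊L / (2 * l)⌋₊ with hk
    have hkle : (k : ℝ) ≤ L / (2 * l) := Nat.floor_le (by positivity)
    have hk1 : (2 : ℝ) * k + 1 ≤ L ^ 2 := by
      have h1 : L / (2 * l) ≤ L / 2 := by
        apply div_le_div_of_nonneg_left (by linarith) (by norm_num)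
        linarith
      nlinarith
    have h3 : (k : ℝ) * Real.log (2 * k + 1) ≤ L := by
      have h4 : Real.log (2 * k + 1) ≤ 2 * l := by
        have := Real.log_le_log (by positivity) hk1
        rw [Real.log_pow] at this
        exact_mod_cast this
      have h5 : 0 ≤ Real.log (2 * k + 1) := Real.log_nonneg (by
        have : (0 : ℝ) ≤ k := Nat.cast_nonneg k
        linarith)
      calc (k : ℝ) * Real.log (2 * k + 1) ≤ L / (2 * l) * (2 * l) :=
            mul_le_mul hkle h4 h5 (by positivity)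
        _ = L := by
            rw [div_mul_cancel₀]
            linarith
    have h6 : ((2 * k + 1 : ℕ) : ℝ) ^ k ≤ n := by
      rw [← Real.log_le_log_iff (by positivity) (by linarith), Real.log_pow]
      push_cast
      exact h3
    exact_mod_cast h6
  · have h1 := Nat.lt_floor_add_one (L / (2 * l))
    have h2 : (1 : ℝ) ≤ ⌊L / (2 * l)⌋₊ := by
      have : 1 ≤ ⌊L / (2 * l)⌋₊ := Nat.le_floor (by exact_mod_cast hx1)
      exact_mod_cast this
    have h3 : L / (4 * l) = L / (2 * l) / 2 := by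
      field_simp
      norm_num
    rw [h3]
    linarith

/-- The lower bound `d_p(n, D) ≥ c (log n / log log n)^{p/2}` for `p ≥ 2`. -/
theorem lower_main (p : ℝ≥0∞) [Fact (1 ≤ p)] (hq : 2 ≤ p.toReal) {D : ℝ}
    (hD : 0 < D) : ∃ c : ℝ, 0 < c ∧ ∀ n : ℕ, 16 ≤ n → ∀ d : ℕ, Admissible.{u} p n D d →
      c * (Real.log n / Real.log (Real.log n)) ^ (p.toReal / 2) ≤ d := by
  set q := p.toReal with hqd
  have hC : 0 < CL q D := by
    unfold CL
    have : 0 < q := by linarith
    positivity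
  have hkap := kap_pos
  refine ⟨(kap / 2) ^ (q / 2) / CL q D, by positivity, ?_⟩
  intro n hn d had
  obtain ⟨k, hk, hkn, hkl⟩ := numeric_low hn
  have h1 := admissible_lower p hq hD hk hkn had
  have hn16 : (16 : ℝ) ≤ n := by exact_mod_cast hn
  have hL1 : 1 < Real.log n := by
    rw [Real.lt_log_iff_exp_lt (by linarith)]
    have := Real.exp_one_lt_d9
    linarith
  have hl0 : 0 < Real.log (Real.log n) := Real.log_pos hL1
  have h2 : kap / 2 * (Real.log n / Real.log (Real.log n)) ≤ 2 * kap * k := by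
    have h3 : kap / 2 * (Real.log n / Real.log (Real.log n)) =
        2 * kap * (Real.log n / (4 * Real.log (Real.log n))) := by
      field_simp
      norm_num
    rw [h3]
    exact mul_le_mul_of_nonneg_left hkl (by positivity)
  have h4 : (kap / 2) ^ (q / 2) * (Real.log n / Real.log (Real.log n)) ^ (q / 2) ≤
      d * CL q D := by
    rw [← Real.mul_rpow (by positivity) (by positivity)]
    exact (Real.rpow_le_rpow (by positivity) h2 (by positivity)).trans h1
  rw [div_mul_eq_mul_div, div_le_iff₀ hC]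
  exact h4

end Vale.Agent.P249
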