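import Mathlib
import Vale.Agent.P249.Defs
import Vale.Agent.P249.Core

/-!
The near-linear upper bound for `d_p(n, D)`.
-/

open MeasureTheory Finset
open scoped ENNReal

namespace Vale.Agent.P249

universe u

lemma lp_increment {α : Type u} [MeasurableSpace α] {μ : Measure α} {p : ℝ≥0∞} [Fact (1 ≤ p)]
    (hp : p ≠ ∞) (x y : Lp ℝ p μ) :
    Integrable (fun ω => |x ω - y ω| ^ p.toReal) μ ∧
      ∫ ω, |x ω - y ω| ^ p.toReal ∂μ = ‖x - y‖ ^ p.toReal := by
  have hp0 : p ≠ 0 := by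
    have : (1 : ℝ≥0∞) ≤ p := Fact.out
    intro h
    rw [h] at this
    simp at this
  have hpr : 0 < p.toReal := ENNReal.toReal_pos hp0 hp
  have hmem := Lp.memLp (x - y)
  have hae : (fun ω => |x ω - y ω| ^ p.toReal) =ᵐ[μ] fun ω => ‖(x - y : Lp ℝ p μ) ω‖ ^ p.toReal := by
    filter_upwards [Lp.coeFn_sub x y] with ω hω
    rw [hω, Pi.sub_apply, Real.norm_eq_abs]
  have hint := hmem.integrable_norm_rpow hp0 hp
  refine ⟨hint.congr hae.symm, ?_⟩
  rw [integral_congr_ae hae, Lp.norm_def, hmem.eLpNorm_eq_integral_rpow_norm hp0 hp]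
  have hnn : 0 ≤ ∫ a, ‖(x - y : Lp ℝ p μ) a‖ ^ p.toReal ∂μ :=
    integral_nonneg fun a => Real.rpow_nonneg (norm_nonneg _) _
  rw [ENNReal.toReal_ofReal (Real.rpow_nonneg hnn _), ← Real.rpow_mul hnn,
    inv_mul_cancel₀ hpr.ne', Real.rpow_one]

/-- the choice of the number of samples -/
lemma numeric {q ε : ℝ} (hq : 1 ≤ q) (hε : 0 < ε) {n : ℕ} (hn : 2 ≤ n) :
    ∃ (k N : ℕ), n < 2 ^ k ∧
      2 * ((n : ℝ) * n) * Real.exp (-(N * (ε / 2) ^ 2 / (((2 * k : ℕ) : ℝ) ^ (q - 1) * (4 * n)))) < 1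
      ∧ (N : ℝ) ≤ (48 * 6 ^ (q - 1) / ε ^ 2 + 2 ^ q) * n * Real.log n ^ q := by
  have hn2 : (2 : ℝ) ≤ n := by exact_mod_cast hn
  have hnpos : (0 : ℝ) < n := by linarith
  set L := Real.log n with hL
  have hlog2 : 0.6931471803 < Real.log 2 := Real.log_two_gt_d9
  have hL2 : Real.log 2 ≤ L := Real.log_le_log (by norm_num) hn2
  have hLpos : 0 < L := by linarith
  set k := Nat.log 2 n + 1 with hk
  have hk1 : n < 2 ^ k := Nat.lt_pow_succ_log_self (by norm_num) n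
  have hk2 : ((2 * k : ℕ) : ℝ) ≤ 6 * L := by
    have h1 : ((Nat.log 2 n : ℕ) : ℝ) * Real.log 2 ≤ L := by
      have h2 : (2 : ℝ) ^ (Nat.log 2 n) ≤ n := by
        exact_mod_cast Nat.pow_log_le_self 2 (by omega : n ≠ 0)
      have h3 := Real.log_le_log (by positivity) h2
      rwa [Real.log_pow] at h3
    rw [hk]
    push_cast
    have h4 : ((Nat.log 2 n : ℕ) : ℝ) + 1 ≤ 2 * (L / Real.log 2) := by
      have h5 : ((Nat.log 2 n : ℕ) : ℝ) ≤ L / Real.log 2 := by
        rw [le_div_iff₀ (by linarith)]; exact h1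
      have h6 : 1 ≤ L / Real.log 2 := by rw [le_div_iff₀ (by linarith)]; linarith
      linarith
    have h7 : L / Real.log 2 ≤ 1.5 * L := by
      rw [div_le_iff₀ (by linarith)]
      nlinarith
    linarith
  set B : ℝ := ((2 * k : ℕ) : ℝ) ^ (q - 1) * (4 * n) with hB
  have hkpos : (0 : ℝ) < ((2 * k : ℕ) : ℝ) := by
    have : 0 < 2 * k := by omega
    exact_mod_cast this
  have hBpos : 0 < B := by
    rw [hB]
    have := Real.rpow_pos_of_pos hkpos (q - 1)
    positivity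
  have hBle : B ≤ (6 * L) ^ (q - 1) * (4 * n) := by
    rw [hB]
    apply mul_le_mul_of_nonneg_right _ (by positivity)
    exact Real.rpow_le_rpow hkpos.le hk2 (by linarith)
  have h2nn : (1 : ℝ) < 2 * (n * n) := by nlinarith
  set T : ℝ := Real.log (2 * (n * n)) with hT
  have hTpos : 0 < T := Real.log_pos h2nn
  have hTle : T ≤ 3 * L := by
    rw [hT, Real.log_mul (by norm_num) (by positivity), Real.log_mul hnpos.ne' hnpos.ne']
    linarith
  refine ⟨k, ⌊4 * B * T / ε ^ 2⌋₊ + 1, hk1, ?_, ?_⟩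
  · have h1 : 4 * B * T / ε ^ 2 < ((⌊4 * B * T / ε ^ 2⌋₊ + 1 : ℕ) : ℝ) := by
      push_cast
      exact Nat.lt_floor_add_one _
    rw [div_lt_iff₀ (by positivity)] at h1
    set N : ℕ := ⌊4 * B * T / ε ^ 2⌋₊ + 1 with hN
    have h2 : T < N * (ε / 2) ^ 2 / B := by
      rw [lt_div_iff₀ hBpos]
      nlinarith
    calc 2 * ((n : ℝ) * n) * Real.exp (-(N * (ε / 2) ^ 2 / B))
        = Real.exp T * Real.exp (-(N * (ε / 2) ^ 2 / B)) := by
          rw [hT, Real.exp_log (by linarith)]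
      _ = Real.exp (T - N * (ε / 2) ^ 2 / B) := by rw [← Real.exp_add]; ring_nf
      _ < 1 := by
          rw [Real.exp_lt_one_iff]
          linarith
  · push_cast
    have h1 : (⌊4 * B * T / ε ^ 2⌋₊ : ℝ) ≤ 4 * B * T / ε ^ 2 := Nat.floor_le (by positivity)
    have h2 : 4 * B * T / ε ^ 2 ≤ 48 * 6 ^ (q - 1) / ε ^ 2 * n * L ^ q := by
      have h3 : L ^ q = L ^ (q - 1) * L := by
        rw [← Real.rpow_add_one hLpos.ne']
        ring_nf
      have h4 : (6 * L) ^ (q - 1) = 6 ^ (q - 1) * L ^ (q - 1) :=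
        Real.mul_rpow (by norm_num) hLpos.le
      have h5 : B * T ≤ (6 ^ (q - 1) * L ^ (q - 1) * (4 * n)) * (3 * L) := by
        rw [h4] at hBle
        exact mul_le_mul hBle hTle hTpos.le (by positivity)
      rw [div_le_iff₀ (by positivity), h3]
      have h6 : 48 * 6 ^ (q - 1) / ε ^ 2 * n * (L ^ (q - 1) * L) * ε ^ 2 =
          4 * ((6 ^ (q - 1) * L ^ (q - 1) * (4 * n)) * (3 * L)) := by
        field_simp
        ring
      rw [h6]
      linarith
    have h7 : (1 : ℝ) ≤ 2 ^ q * n * L ^ q := by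
      have h8 : (1 : ℝ) ≤ (2 * L) ^ q := Real.one_le_rpow (by linarith) (by linarith)
      rw [Real.mul_rpow (by norm_num) hLpos.le] at h8
      nlinarith
    calc (⌊4 * B * T / ε ^ 2⌋₊ : ℝ) + 1 ≤ 48 * 6 ^ (q - 1) / ε ^ 2 * n * L ^ q +
          2 ^ q * n * L ^ q := by linarith
      _ = (48 * 6 ^ (q - 1) / ε ^ 2 + 2 ^ q) * n * L ^ q := by ring

/-- The near-linear upper bound. -/
theorem admissible_upper (p : ℝ≥0∞) [Fact (1 ≤ p)] (hp : p ≠ ∞) {D : ℝ} (hD : 1 < D) :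
    ∃ C : ℝ, 0 < C ∧ ∀ n : ℕ, 2 ≤ n → ∃ d : ℕ,
      (d : ℝ) ≤ C * n * Real.log n ^ p.toReal ∧ Admissible.{u} p n D d := by
  have hp1 : (1 : ℝ≥0∞) ≤ p := Fact.out
  have hp0 : p ≠ 0 := by
    intro h
    rw [h] at hp1
    simp at hp1
  have hpr : 0 < p.toReal := ENNReal.toReal_pos hp0 hp
  have hq : 1 ≤ p.toReal := by
    have := (ENNReal.toReal_le_toReal ENNReal.one_ne_top hp).mpr hp1
    simpa using this
  set q := p.toReal with hqd
  set ε : ℝ := (D - 1) / (D + 1) with hεd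
  have hε : 0 < ε := div_pos (by linarith) (by linarith)
  have hε1 : ε < 1 := by rw [hεd, div_lt_one (by linarith)]; linarith
  have hDε : 1 + ε = D * (1 - ε) := by
    rw [hεd]; field_simp; ring
  refine ⟨48 * 6 ^ (q - 1) / ε ^ 2 + 2 ^ q, by positivity, ?_⟩
  intro n hn
  obtain ⟨k, N, hk, hN, hNle⟩ := numeric hq hε hn
  refine ⟨N, hNle, ?_⟩
  intro α _ μ X hX
  classical
  have hcard : Fintype.card X = n := by rw [Fintype.card_coe, hX]
  have hl0 : ∀ u v : X, (0 : ℝ) ≤ ‖(u : Lp ℝ p μ) - v‖ := fun u v => norm_nonneg _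
  obtain ⟨f, c, hc, hf⟩ := embed_core (V := X) μ (fun x => ((x : Lp ℝ p μ) : α → ℝ))
    (fun x => (Lp.stronglyMeasurable (x : Lp ℝ p μ)).measurable)
    (fun u v => ‖(u : Lp ℝ p μ) - v‖) hq (fun u v => norm_sub_rev _ _) hl0
    (fun u v huv => norm_pos_iff.mpr (sub_ne_zero.mpr fun h => huv (Subtype.ext h)))
    (fun u v _ => lp_increment hp (u : Lp ℝ p μ) v) (by rw [hcard]; exact hn) (k := k)
    (by rw [hcard]; exact hk) hε hε1.le (N := N) (by rw [hcard]; exact hN)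
  have hNpos : (0 : ℝ) < N := by
    rcases Nat.eq_zero_or_pos N with h0 | h0
    · exfalso
      rw [h0] at hN
      simp only [Nat.cast_zero, zero_mul, zero_div, neg_zero, Real.exp_zero, mul_one] at hN
      have : (2 : ℝ) ≤ n := by exact_mod_cast hn
      nlinarith
    · exact_mod_cast h0
  refine ⟨fun x => WithLp.toLp p (f x), ((1 - ε) * N * c) ^ (1 / q), ?_, ?_⟩
  · apply Real.rpow_pos_of_pos
    have : 0 < 1 - ε := by linarith
    positivity
  intro x x'
  have hnorm : ‖(WithLp.toLp p (f x) : PiLp p (fun _ : Fin N => ℝ)) - WithLp.toLp p (f x')‖ =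
      (∑ i, |f x i - f x' i| ^ q) ^ (1 / q) := by
    rw [PiLp.norm_eq_sum hpr]
    rfl
  rw [hnorm]
  by_cases hxx : x = x'
  · subst hxx
    simp only [sub_self, norm_zero, mul_zero, abs_zero]
    rw [Real.zero_rpow hpr.ne']
    simp [Real.zero_rpow, hpr.ne']
  · obtain ⟨h1, h2⟩ := hf x x' hxx
    have hln : 0 ≤ ‖(x : Lp ℝ p μ) - x'‖ := norm_nonneg _
    have he : 0 < 1 - ε := by linarith
    have hA : 0 ≤ (1 - ε) * N * c := by positivity
    have hroot : (‖(x : Lp ℝ p μ) - x'‖ ^ q) ^ (1 / q) = ‖(x : Lp ℝ p μ) - x'‖ := by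
      rw [← Real.rpow_mul hln, mul_one_div_cancel hpr.ne', Real.rpow_one]
    constructor
    · calc ((1 - ε) * N * c) ^ (1 / q) * ‖(x : Lp ℝ p μ) - x'‖
          = ((1 - ε) * N * c * ‖(x : Lp ℝ p μ) - x'‖ ^ q) ^ (1 / q) := by
            rw [Real.mul_rpow hA (Real.rpow_nonneg hln _), hroot]
        _ ≤ _ := Real.rpow_le_rpow (mul_nonneg hA (Real.rpow_nonneg hln _)) h1 (by positivity)
    · calc (∑ i, |f x i - f x' i| ^ q) ^ (1 / q)
          ≤ ((1 + ε) * N * c * ‖(x : Lp ℝ p μ) - x'‖ ^ q) ^ (1 / q) :=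
            Real.rpow_le_rpow (Finset.sum_nonneg fun i _ => Real.rpow_nonneg (abs_nonneg _) _) h2
              (by positivity)
        _ = (D * ((1 - ε) * N * c) * ‖(x : Lp ℝ p μ) - x'‖ ^ q) ^ (1 / q) := by
            rw [hDε]; ring_nf
        _ = D ^ (1 / q) * ((1 - ε) * N * c) ^ (1 / q) * ‖(x : Lp ℝ p μ) - x'‖ := by
            rw [Real.mul_rpow (by positivity) (Real.rpow_nonneg hln _),
              Real.mul_rpow (by linarith) hA, hroot]
        _ ≤ D * ((1 - ε) * N * c) ^ (1 / q) * ‖(x : Lp ℝ p μ) - x'‖ := by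
            apply mul_le_mul_of_nonneg_right _ hln
            apply mul_le_mul_of_nonneg_right _ (Real.rpow_nonneg hA _)
            calc D ^ (1 / q) ≤ D ^ (1 : ℝ) :=
                  Real.rpow_le_rpow_of_exponent_le hD.le (by
                    rw [div_le_one hpr]; exact hq)
              _ = D := Real.rpow_one D

end Vale.Agent.P249
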